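import Mathlib.Analysis.Analytic.IsolatedZeros
import Mathlib.Analysis.Analytic.OfScalars
import Mathlib.Analysis.Calculus.ContDiff.Basic
import Mathlib.Analysis.Calculus.InverseFunctionTheorem.ApproximatesLinearOn
import Mathlib.Analysis.Calculus.InverseFunctionTheorem.FDeriv
import Mathlib.Analysis.Calculus.IteratedDeriv.Lemmas
import Mathlib.Analysis.Calculus.MeanValue
import Mathlib.Analysis.Complex.Basic
import Mathlib.Analysis.Complex.CauchyIntegral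
import Mathlib.Analysis.Complex.Liouville
import Mathlib.Analysis.Complex.Schwarz
import Mathlib.Analysis.Complex.TaylorSeries
import Mathlib.Geometry.Manifold.ContMDiff.Atlas
import Mathlib.Geometry.Manifold.ContMDiff.Constructions
import Mathlib.Geometry.Manifold.ContMDiff.NormedSpace
import Mathlib.Geometry.Manifold.MFDeriv.Basic
import Mathlib.Topology.Covering.Basic
import Mathlib.Analysis.Calculus.Deriv.Prod
import Mathlib.Analysis.Normed.Module.FiniteDimension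
import Mathlib.Analysis.Normed.Module.HahnBanach
import Mathlib.Geometry.Manifold.ContMDiffMFDeriv
import Mathlib.Geometry.Manifold.Diffeomorph
import Mathlib.Geometry.Manifold.LocalDiffeomorph
import Mathlib.Geometry.Manifold.MFDeriv.Atlas
import Mathlib.LinearAlgebra.Determinant
import Mathlib.LinearAlgebra.Matrix.ToLin
import Mathlib.Topology.Homotopy.Lifting
import Mathlib.Topology.MetricSpace.ProperSpace.Lemmas
import Vale.Agent.P300.T2Defs
import Vale.Agent.P300.CoverDefs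

set_option linter.all false

section

section

open Set Metric
open scoped ContDiff NNReal

namespace Vale.Agent.P300

/-- Cauchy estimate for the Frechet derivative. -/
theorem norm_fderiv_le_of_bound {E F : Type*} [NormedAddCommGroup E] [NormedSpace ℂ E]
    [NormedAddCommGroup F] [NormedSpace ℂ F]
    {g : E → F} {c : E} {r M : ℝ} (hr : 0 < r)
    (hd : DifferentiableOn ℂ g (ball c r)) (hb : ∀ u ∈ ball c r, ‖g u‖ ≤ M) :
    ‖fderiv ℂ g c‖ ≤ 2 * M / r := by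
  refine Complex.norm_fderiv_le_div_of_mapsTo_ball hd (fun u hu => ?_) hr
  rw [mem_closedBall, dist_eq_norm]
  have h1 := hb u hu
  have h2 := hb c (mem_ball_self hr)
  calc ‖g u - g c‖ ≤ ‖g u‖ + ‖g c‖ := norm_sub_le _ _
    _ ≤ 2 * M := by linarith only [h1, h2]

/-- Quantitative open mapping property for bounded holomorphic maps whose derivative at the
centre has a bounded right inverse. -/
theorem quant_surj {R M C : ℝ} (hR : 0 < R) (hM : 0 < M) (hC : 0 < C) :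
    ∃ δ > 0, ∃ ε > 0, ε < R ∧ ∀ {E : Type*} [NormedAddCommGroup E] [NormedSpace ℂ E]
      [CompleteSpace E] (g : E → E) (c : E), ContDiffOn ℂ ω g (ball c R) →
      (∀ u ∈ ball c R, ‖g u‖ ≤ M) →
      (∀ y : E, ∃ u : E, fderiv ℂ g c u = y ∧ ‖u‖ ≤ C * ‖y‖) →
      closedBall (g c) δ ⊆ g '' closedBall c ε := by
  set ε : ℝ := min (R / 4) (R ^ 2 / (64 * M * C)) with hε
  have hεpos : 0 < ε := by
    rw [hε]; exact lt_min (by (clear * - hR; positivity)) (by positivity)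
  have hε1 : ε ≤ R / 4 := min_le_left _ _
  have hε2 : ε ≤ R ^ 2 / (64 * M * C) := min_le_right _ _
  refine ⟨ε / (2 * C), by positivity, ε, hεpos, by linarith only [hεpos, hε1], ?_⟩
  intro E _ _ _ g c hg hb hinv
  have hdiff : DifferentiableOn ℂ g (ball c R) := hg.differentiableOn (by simp)
  -- bound on the derivative on the half ball
  have hb1 : ∀ u ∈ ball c (R / 2), ‖fderiv ℂ g u‖ ≤ 4 * M / R := by
    intro u hu
    have hsub : ball u (R / 2) ⊆ ball c R := by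
      refine ball_subset_ball' ?_
      have := mem_ball.1 hu
      linarith only [this]
    have := norm_fderiv_le_of_bound (r := R / 2) (by positivity) (hdiff.mono hsub)
      (fun v hv => hb v (hsub hv))
    refine this.trans (le_of_eq ?_)
    field_simp
    ring
  have hfd : DifferentiableOn ℂ (fderiv ℂ g) (ball c (R / 2)) := by
    have h1 : ContDiffOn ℂ 1 (fderiv ℂ g) (ball c R) :=
      hg.fderiv_of_isOpen isOpen_ball (by simp)
    exact (h1.differentiableOn (by simp)).mono (ball_subset_ball (by linarith only [hεpos, hε1]))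
  have hb2 : ∀ u ∈ ball c (R / 2), ‖fderiv ℂ g u - fderiv ℂ g c‖ ≤ 16 * M / R ^ 2 * ‖u - c‖ := by
    intro u hu
    have := Complex.dist_le_div_mul_dist_of_mapsTo_ball (R₂ := 8 * M / R) hfd (fun v hv => by
      rw [mem_closedBall, dist_eq_norm]
      have h1 := hb1 v hv
      have h2 := hb1 c (mem_ball_self (by positivity))
      calc ‖fderiv ℂ g v - fderiv ℂ g c‖ ≤ ‖fderiv ℂ g v‖ + ‖fderiv ℂ g c‖ := norm_sub_le _ _
        _ ≤ 4 * M / R + 4 * M / R := add_le_add h1 h2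
        _ = 8 * M / R := by ring) hu
    rw [dist_eq_norm, dist_eq_norm] at this
    refine this.trans (le_of_eq ?_)
    field_simp
    ring
  obtain ⟨κ, hκ⟩ : ∃ κ : ℝ≥0, (κ : ℝ) = 1 / (4 * C) := ⟨⟨1 / (4 * C), by positivity⟩, rfl⟩
  have happ : ApproximatesLinearOn g (fderiv ℂ g c) (closedBall c ε) κ := by
    intro x hx y hy
    let _ : NormedSpace ℝ E := NormedSpace.restrictScalars ℝ ℂ E
    refine Convex.norm_image_sub_le_of_norm_fderiv_le' (𝕜 := ℂ) (s := closedBall c ε)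
      (fun u hu => ?_) (fun u hu => ?_) (convex_closedBall c ε) hy hx
    · have hu' : u ∈ ball c R := by
        rw [mem_ball]; rw [mem_closedBall] at hu; linarith only [hεpos, hε1, hu]
      exact (hdiff u hu').differentiableAt (isOpen_ball.mem_nhds hu')
    · have hu' : u ∈ ball c (R / 2) := by
        rw [mem_ball]; rw [mem_closedBall] at hu; linarith only [hεpos, hε1, hu]
      refine (hb2 u hu').trans ?_
      rw [mem_closedBall, dist_eq_norm] at hu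
      calc 16 * M / R ^ 2 * ‖u - c‖ ≤ 16 * M / R ^ 2 * (R ^ 2 / (64 * M * C)) := by
            gcongr
            exact hu.trans hε2
        _ = (κ : ℝ) := by
            rw [hκ]
            field_simp
            norm_num
  choose inv hinv1 hinv2 using hinv
  let f'symm : (fderiv ℂ g c).NonlinearRightInverse :=
    ⟨inv, ⟨C, hC.le⟩, fun y => hinv2 y, fun y => hinv1 y⟩
  have hs := happ.surjOn_closedBall_of_nonlinearRightInverse f'symm (ε := ε) (b := c) hεpos.le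
    Subset.rfl
  refine (closedBall_subset_closedBall ?_).trans hs
  have h1 : (f'symm.nnnorm : ℝ) = C := rfl
  have : ((f'symm.nnnorm : ℝ)⁻¹ - κ) = 3 / (4 * C) := by
    rw [h1, hκ]
    field_simp
    norm_num
  rw [this]
  rw [div_mul_eq_mul_div, div_le_div_iff₀ (by positivity) (by positivity)]
  nlinarith only [hεpos, hC]

end Vale.Agent.P300
end
end

section

section

open Set Filter Topology
open scoped ContDiff Nat

namespace Vale.Agent.P300

/-- Iterated derivatives in a complex parameter of an analytic function are analytic. -/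
theorem contDiffAt_iteratedDeriv_param {E F : Type*} [NormedAddCommGroup E] [NormedSpace ℂ E]
    [NormedAddCommGroup F] [NormedSpace ℂ F]
    {f : E × ℂ → F} {q : E × ℂ} (hf : ContDiffAt ℂ ω f q) (k : ℕ) :
    ContDiffAt ℂ ω (fun q : E × ℂ => iteratedDeriv k (fun z => f (q.1, z)) q.2) q := by
  induction k with
  | zero => simpa using hf
  | succ k ih =>
    set Fk : E × ℂ → F := fun q : E × ℂ => iteratedDeriv k (fun z => f (q.1, z)) q.2 with hFk
    have h1 : ∀ᶠ y in 𝓝 q, ContDiffAt ℂ ω Fk y := ih.eventually (by simp)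
    have h2 : ContDiffAt ℂ ω (fun y : E × ℂ => fderiv ℂ Fk y (0, 1)) q :=
      (ih.fderiv_right (m := ω) (by simp)).clm_apply contDiffAt_const
    refine h2.congr_of_eventuallyEq ?_
    filter_upwards [h1] with y hy
    rw [iteratedDeriv_succ]
    have h3 : HasFDerivAt Fk (fderiv ℂ Fk y) y := (hy.differentiableAt (by simp)).hasFDerivAt
    have h4 : HasDerivAt (fun z : ℂ => ((y.1, z) : E × ℂ)) (0, 1) y.2 :=
      (hasDerivAt_const y.2 y.1).prodMk (hasDerivAt_id y.2)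
    have h5 : HasDerivAt (fun z : ℂ => Fk (y.1, z)) (fderiv ℂ Fk y (0, 1)) y.2 :=
      HasFDerivAt.comp_hasDerivAt (x := y.2) (f := fun z : ℂ => ((y.1, z) : E × ℂ)) h3 h4
    exact h5.deriv

/-- A function with Taylor coefficients bounded by `C / R ^ n` extends to the disc of radius
`R`. -/
theorem exists_analytic_extension {f : ℂ → ℂ} (hf : AnalyticAt ℂ f 0) {C R : ℝ} (hR : 0 < R)
    (hC : ∀ n : ℕ, ‖iteratedDeriv n f 0‖ ≤ n ! * C / R ^ n) :
    ∃ G : ℂ → ℂ, AnalyticOnNhd ℂ G (Metric.ball 0 R) ∧ G =ᶠ[𝓝 0] f := by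
  set p : FormalMultilinearSeries ℂ ℂ ℂ :=
    FormalMultilinearSeries.ofScalars ℂ (fun n => iteratedDeriv n f 0 / (n ! : ℂ)) with hp
  set r : NNReal := ⟨R, hR.le⟩ with hr
  have hrR : (r : ℝ) = R := rfl
  have hrad : (r : ENNReal) ≤ p.radius := by
    refine p.le_radius_of_bound C fun n => ?_
    rw [hp, FormalMultilinearSeries.ofScalars_norm, norm_div]
    have hn : (0 : ℝ) < n ! := by exact_mod_cast Nat.factorial_pos n
    have hRn : 0 < R ^ n := pow_pos hR n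
    have h1 := hC n
    simp only [Complex.norm_natCast, hrR]
    rw [div_mul_eq_mul_div, div_le_iff₀ hn]
    rw [le_div_iff₀ hRn] at h1
    linarith only [h1]
  have hpos : 0 < p.radius := lt_of_lt_of_le (by exact_mod_cast hR) hrad
  have hball := p.hasFPowerSeriesOnBall hpos
  refine ⟨p.sum, ?_, ?_⟩
  · refine hball.analyticOnNhd.mono ?_
    intro z hz
    rw [Metric.mem_eball, edist_zero_right] at *
    rw [mem_ball_zero_iff] at hz
    refine lt_of_lt_of_le ?_ hrad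
    rw [← ofReal_norm, ENNReal.ofReal_lt_coe_iff (norm_nonneg _)]
    exact_mod_cast hz
  · have h1 : HasFPowerSeriesAt f p 0 := hf.hasFPowerSeriesAt
    have h2 : HasFPowerSeriesAt p.sum p 0 := hball.hasFPowerSeriesAt
    filter_upwards [h1.eventually_hasSum, h2.eventually_hasSum] with y hy1 hy2
    simpa using hy2.unique hy1

end Vale.Agent.P300
end
end

section

section

open Set Filter Topology

namespace Vale.Agent.P300

/-- Limits of paths in a compact space under a closed relation with finite fibres. -/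
theorem exists_tendsto_of_closed_relation {X H : Type*} [TopologicalSpace X] [T2Space X]
    [CompactSpace X] [TopologicalSpace H] {R : Set (X × H)} (hR : IsClosed R)
    {c : ℝ → X} {h : ℝ → H} {h₀ : H} {a b : ℝ} (hab : a < b)
    (hc : ContinuousOn c (Ico a b)) (hh : Tendsto h (𝓝[<] b) (𝓝 h₀))
    (hRc : ∀ᶠ t in 𝓝[<] b, (c t, h t) ∈ R) (hfin : {x | (x, h₀) ∈ R}.Finite) :
    ∃ q, Tendsto c (𝓝[<] b) (𝓝 q) := by
  set Q : Set X := {x | (x, h₀) ∈ R} with hQ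
  have step1 : ∀ U : Set X, IsOpen U → Q ⊆ U → ∀ᶠ t in 𝓝[<] b, c t ∈ U := by
    intro U hU hQU
    by_contra hcon
    rw [not_eventually] at hcon
    have hne : NeBot (𝓝[<] b ⊓ 𝓟 {t | c t ∉ U}) := frequently_iff_neBot.mp hcon
    obtain ⟨F, hF⟩ := Ultrafilter.exists_le (𝓝[<] b ⊓ 𝓟 {t | c t ∉ U})
    obtain ⟨q, -, hq⟩ := isCompact_univ.ultrafilter_le_nhds (F.map c) (by simp)
    have h1 : Tendsto c F (𝓝 q) := hq
    have hF1 : (F : Filter ℝ) ≤ 𝓝[<] b := hF.trans inf_le_left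
    have hF2 : ∀ᶠ t in (F : Filter ℝ), c t ∉ U := (hF.trans inf_le_right) (mem_principal_self _)
    have h2 : Tendsto h F (𝓝 h₀) := hh.mono_left hF1
    have h3 : Tendsto (fun t => (c t, h t)) F (𝓝 (q, h₀)) := h1.prodMk_nhds h2
    have h4 : (q, h₀) ∈ R := hR.mem_of_tendsto h3 (hF1 hRc)
    have h5 : q ∈ U := hQU h4
    have h6 : ∀ᶠ t in (F : Filter ℝ), c t ∈ U := h1 (hU.mem_nhds h5)
    obtain ⟨t, ht1, ht2⟩ := (h6.and hF2).exists
    exact ht2 ht1
  obtain ⟨U, hU, hdisj⟩ := hfin.t2_separation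
  have hopen : ∀ S : Set X, IsOpen (⋃ q ∈ S, U q) := fun S =>
    isOpen_biUnion fun q _ => (hU q).2
  have h1 := step1 (⋃ q ∈ Q, U q) (hopen Q) (fun q hq => mem_biUnion hq (hU q).1)
  obtain ⟨a', ha', hIoo⟩ : ∃ a' ∈ Iio b, Ioo a' b ⊆ {t | c t ∈ ⋃ q ∈ Q, U q} :=
    (mem_nhdsLT_iff_exists_Ioo_subset).mp h1
  set a'' := max a a' with ha''
  have hab'' : a'' < b := max_lt hab ha'
  have hsub : Ioo a'' b ⊆ Ico a b := fun t ht => ⟨(le_max_left _ _).trans ht.1.le, ht.2⟩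
  have hpre : IsPreconnected (c '' Ioo a'' b) :=
    isPreconnected_Ioo.image c (hc.mono hsub)
  obtain ⟨t₀, ht₀⟩ := nonempty_Ioo.mpr hab''
  have ht₀' : c t₀ ∈ ⋃ q ∈ Q, U q := hIoo ⟨(le_max_right _ _).trans_lt ht₀.1, ht₀.2⟩
  obtain ⟨q₀, hq₀Q, hq₀⟩ := mem_iUnion₂.mp ht₀'
  have hdis : Disjoint (U q₀) (⋃ q ∈ Q \ {q₀}, U q) := by
    rw [disjoint_iUnion₂_right]
    intro q hq
    exact hdisj hq₀Q hq.1 (fun h => hq.2 h.symm)
  have hsubU : c '' Ioo a'' b ⊆ U q₀ := by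
    refine IsPreconnected.subset_left_of_subset_union (hU q₀).2 (hopen (Q \ {q₀})) hdis ?_ ?_ hpre
    · rintro _ ⟨t, ht, rfl⟩
      have : c t ∈ ⋃ q ∈ Q, U q := hIoo ⟨(le_max_right _ _).trans_lt ht.1, ht.2⟩
      obtain ⟨q, hqQ, hq⟩ := mem_iUnion₂.mp this
      by_cases hqq : q = q₀
      · left; rw [← hqq]; exact hq
      · right; exact mem_biUnion ⟨hqQ, hqq⟩ hq
    · exact ⟨c t₀, ⟨t₀, ht₀, rfl⟩, hq₀⟩
  refine ⟨q₀, ?_⟩
  rw [tendsto_def]
  intro V hV
  obtain ⟨V', hV'V, hV'open, hqV'⟩ := mem_nhds_iff.mp hV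
  have h2 := step1 (V' ∪ ⋃ q ∈ Q \ {q₀}, U q) (hV'open.union (hopen _)) (by
    intro q hq
    by_cases hqq : q = q₀
    · left; rw [hqq]; exact hqV'
    · right; exact mem_biUnion ⟨hq, hqq⟩ (hU q).1)
  have h3 : ∀ᶠ t in 𝓝[<] b, t ∈ Ioo a'' b := Ioo_mem_nhdsLT hab''
  filter_upwards [h2, h3] with t ht ht'
  rcases ht with ht | ht
  · exact hV'V ht
  · exact absurd ht (disjoint_left.mp hdis (hsubU ⟨t, ht', rfl⟩))

/-- A path in a covering space converges if its projection does. -/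
theorem exists_tendsto_of_covering {M X : Type*} [TopologicalSpace M] [TopologicalSpace X]
    {p : M → X} (hp : IsCoveringMap p) {c : ℝ → M} {a b : ℝ} (hab : a < b)
    (hc : ContinuousOn c (Ico a b)) {q : X} (hq : Tendsto (fun t => p (c t)) (𝓝[<] b) (𝓝 q)) :
    ∃ v, Tendsto c (𝓝[<] b) (𝓝 v) := by
  obtain ⟨hdisc, U, hqU, hU, hpU, H, hH⟩ := hp q
  have h1 : ∀ᶠ t in 𝓝[<] b, p (c t) ∈ U := hq (hU.mem_nhds hqU)
  obtain ⟨a', ha', hIoo⟩ : ∃ a' ∈ Iio b, Ioo a' b ⊆ {t | p (c t) ∈ U} :=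
    (mem_nhdsLT_iff_exists_Ioo_subset).mp h1
  set a'' := max a a' with ha''
  have hab'' : a'' < b := max_lt hab ha'
  have hsub : Ioo a'' b ⊆ Ico a b := fun t ht => ⟨(le_max_left _ _).trans ht.1.le, ht.2⟩
  have hU' : ∀ t ∈ Ioo a'' b, c t ∈ p ⁻¹' U := fun t ht =>
    hIoo ⟨(le_max_right _ _).trans_lt ht.1, ht.2⟩
  let f : Ioo a'' b → p ⁻¹' U := fun t => ⟨c t, hU' t t.2⟩
  have hf : Continuous f := by
    refine Continuous.subtype_mk ?_ _
    exact continuousOn_iff_continuous_domRestrict.mp (hc.mono hsub)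
  let g : Ioo a'' b → p ⁻¹' {q} := fun t => (H (f t)).2
  have hg : Continuous g := continuous_snd.comp (H.continuous.comp hf)
  have : PreconnectedSpace (Ioo a'' b) := Subtype.preconnectedSpace isPreconnected_Ioo
  obtain ⟨t₀, ht₀⟩ := nonempty_Ioo.mpr hab''
  set i := g ⟨t₀, ht₀⟩ with hi
  have hconst : ∀ t : Ioo a'' b, g t = i := fun t =>
    PreconnectedSpace.constant inferInstance hg
  classical
  let K : X → M := fun x => if hx : x ∈ U then (H.symm (⟨x, hx⟩, i)).1 else c t₀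
  have hK : ContinuousAt K q := by
    have : ContinuousOn K U := by
      rw [continuousOn_iff_continuous_domRestrict]
      have : U.domRestrict K = fun x : U => (H.symm (x, i)).1 := by
        funext x
        simp only [domRestrict, x.2, ↓reduceDIte, Subtype.coe_eta, K]
      rw [this]
      exact continuous_subtype_val.comp (H.symm.continuous.comp (by fun_prop))
    exact this.continuousAt (hU.mem_nhds hqU)
  refine ⟨K q, ?_⟩
  have h2 : Tendsto (fun t => K (p (c t))) (𝓝[<] b) (𝓝 (K q)) := hK.tendsto.comp hq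
  refine h2.congr' ?_
  have h3 : ∀ᶠ t in 𝓝[<] b, t ∈ Ioo a'' b := Ioo_mem_nhdsLT hab''
  filter_upwards [h3] with t ht
  have hpt : p (c t) ∈ U := hU' t ht
  have h4 : H (f ⟨t, ht⟩) = (⟨p (c t), hpt⟩, i) := by
    refine Prod.ext (Subtype.ext ?_) (hconst ⟨t, ht⟩)
    exact hH (f ⟨t, ht⟩)
  simp only [K, dif_pos hpt]
  rw [← h4, Homeomorph.symm_apply_apply]

/-- Continuation lemma: a path in a covering space of a compact space whose image in projective
space is given by a vector valued analytic function up to the endpoint has a limit. -/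
theorem exists_tendsto_of_analytic {M X : Type*} [TopologicalSpace M] [TopologicalSpace X]
    [T2Space X] [CompactSpace X] {p : M → X} (hp : IsCoveringMap p)
    {E : Type*} [NormedAddCommGroup E] [NormedSpace ℂ E]
    {R : Set (X × E)} (hR : IsClosed R)
    (hhom : ∀ x h, ∀ μ : ℂ, μ ≠ 0 → (x, μ • h) ∈ R → (x, h) ∈ R)
    (hfin : ∀ h : E, h ≠ 0 → {x | (x, h) ∈ R}.Finite)
    {c : ℝ → M} {a b : ℝ} (hab : a < b) (hc : ContinuousOn c (Ico a b)) {G : ℂ → E}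
    (hG : AnalyticAt ℂ G (b : ℂ)) (hG0 : ¬ ∀ᶠ z in 𝓝 (b : ℂ), G z = 0)
    (hRc : ∀ t ∈ Ico a b, (p (c t), G (t : ℂ)) ∈ R) :
    ∃ v, Tendsto c (𝓝[<] b) (𝓝 v) := by
  obtain ⟨n, H, hH, hHb, hGH⟩ := (hG.exists_eventuallyEq_pow_smul_nonzero_iff).mpr hG0
  have hofReal : Tendsto (fun t : ℝ => (t : ℂ)) (𝓝[<] b) (𝓝 (b : ℂ)) :=
    (Complex.continuous_ofReal.tendsto b).mono_left nhdsWithin_le_nhds
  have h1 : Tendsto (fun t : ℝ => H (t : ℂ)) (𝓝[<] b) (𝓝 (H (b : ℂ))) :=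
    hH.continuousAt.tendsto.comp hofReal
  have h2 : ∀ᶠ t : ℝ in 𝓝[<] b, G (t : ℂ) = ((t : ℂ) - b) ^ n • H (t : ℂ) := hofReal hGH
  have hpc : ContinuousOn (fun t => p (c t)) (Ico a b) := hp.continuous.comp_continuousOn hc
  have h3 : ∀ᶠ t : ℝ in 𝓝[<] b, (p (c t), H (t : ℂ)) ∈ R := by
    filter_upwards [h2, Ico_mem_nhdsLT hab] with t ht htI
    have := hRc t htI
    rw [ht] at this
    refine hhom _ _ _ (pow_ne_zero _ ?_) this
    intro h0
    have h4 : (t : ℂ) = b := sub_eq_zero.mp h0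
    exact absurd (Complex.ofReal_injective h4) htI.2.ne
  obtain ⟨q, hq⟩ := exists_tendsto_of_closed_relation hR hab hpc h1 h3 (hfin _ hHb)
  exact exists_tendsto_of_covering hp hab hc hq

end Vale.Agent.P300
end
end

section

section

open Set Filter Topology Metric
open scoped ContDiff Nat Manifold

namespace Vale.Agent.P300

section Param

variable {E : Type*} [NormedAddCommGroup E] [NormedSpace ℂ E]
  {W : Type*} [TopologicalSpace W] [ChartedSpace E W] [IsManifold 𝓘(ℂ, E) ω W]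
  {F : Type*} [NormedAddCommGroup F] [NormedSpace ℂ F]
  {G : Type*} [NormedAddCommGroup G] [NormedSpace ℂ G]

/-- Reading a function of a point of the manifold and a vector in the chart. -/
theorem contDiffAt_chart_param {f : W × F → G} {w : W} {z : F}
    (hf : ContMDiffAt (𝓘(ℂ, E).prod 𝓘(ℂ, F)) 𝓘(ℂ, G) ω f (w, z)) :
    ContDiffAt ℂ ω (fun q : E × F => f ((extChartAt 𝓘(ℂ, E) w).symm q.1, q.2))
      (extChartAt 𝓘(ℂ, E) w w, z) := by
  rw [← contMDiffAt_iff_contDiffAt]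
  have h1 : ContMDiffAt 𝓘(ℂ, E) 𝓘(ℂ, E) ω (extChartAt 𝓘(ℂ, E) w).symm
      (extChartAt 𝓘(ℂ, E) w w) :=
    (contMDiffOn_extChartAt_symm w).contMDiffAt (extChartAt_target_mem_nhds w)
  have h2 : ContMDiffAt 𝓘(ℂ, E × F) 𝓘(ℂ, E) ω
      (fun q : E × F => (extChartAt 𝓘(ℂ, E) w).symm q.1) (extChartAt 𝓘(ℂ, E) w w, z) :=
    ContMDiffAt.comp (I' := 𝓘(ℂ, E)) (g := (extChartAt 𝓘(ℂ, E) w).symm)
      (f := fun q : E × F => q.1) _ h1 contDiff_fst.contMDiff.contMDiffAt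
  have h3 : ContMDiffAt 𝓘(ℂ, E × F) 𝓘(ℂ, F) ω
      (fun q : E × F => q.2) (extChartAt 𝓘(ℂ, E) w w, z) :=
    contDiff_snd.contMDiff.contMDiffAt
  have h4 := h2.prodMk h3
  refine ContMDiffAt.comp_of_eq (I' := 𝓘(ℂ, E).prod 𝓘(ℂ, F)) (g := f) hf h4 ?_
  simp

/-- Iterated derivatives in a complex parameter of a holomorphic function are holomorphic. -/
theorem contMDiffAt_iteratedDeriv_param {f : W × ℂ → G} {w : W} {z : ℂ}
    (hf : ContMDiffAt (𝓘(ℂ, E).prod 𝓘(ℂ, ℂ)) 𝓘(ℂ, G) ω f (w, z)) (k : ℕ) :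
    ContMDiffAt 𝓘(ℂ, E) 𝓘(ℂ, G) ω (fun w => iteratedDeriv k (fun z => f (w, z)) z) w := by
  have h1 := contDiffAt_iteratedDeriv_param (contDiffAt_chart_param hf) k
  have h2 : ContDiffAt ℂ ω (fun u : E => ((u, z) : E × ℂ)) (extChartAt 𝓘(ℂ, E) w w) :=
    contDiffAt_id.prodMk contDiffAt_const
  have h3 := (contMDiffAt_iff_contDiffAt.mpr (h1.comp (extChartAt 𝓘(ℂ, E) w w) h2)).comp w
    contMDiffAt_extChartAt
  refine h3.congr_of_eventuallyEq ?_
  filter_upwards [extChartAt_source_mem_nhds (I := 𝓘(ℂ, E)) w] with y hy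
  simp only [Function.comp_apply, (extChartAt 𝓘(ℂ, E) w).left_inv hy]

end Param

/-- `g` is holomorphic at all points of `U`. -/
def HolOn (E : Type*) [NormedAddCommGroup E] [NormedSpace ℂ E]
    {W : Type*} [TopologicalSpace W] [ChartedSpace E W] (U : Set W) (g : W → ℂ) : Prop :=
  ∀ w ∈ U, ContMDiffAt 𝓘(ℂ, E) 𝓘(ℂ, ℂ) ω g w

/-- The holomorphic hull of `K` in the open set `U`. -/
def hullOn (E : Type*) [NormedAddCommGroup E] [NormedSpace ℂ E]
    {W : Type*} [TopologicalSpace W] [ChartedSpace E W] (U K : Set W) : Set W :=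
  {x | x ∈ U ∧ ∀ g : W → ℂ, HolOn E U g → ∀ C : ℝ, (∀ k ∈ K, ‖g k‖ ≤ C) → ‖g x‖ ≤ C}

section Spray

variable {E : Type*} [NormedAddCommGroup E] [NormedSpace ℂ E]
  {W : Type*} [TopologicalSpace W] [ChartedSpace E W] [IsManifold 𝓘(ℂ, E) ω W]
  {T : Type*} [NormedAddCommGroup T] [NormedSpace ℂ T]
  {O : Set (W × T)} {s : W × T → W}

theorem contMDiffAt_spray_line {U : Set W} {g : W → ℂ}
    (hO : IsOpen O) (hs : ContMDiffOn (𝓘(ℂ, E).prod 𝓘(ℂ, T)) 𝓘(ℂ, E) ω s O)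
    (hg : HolOn E U g) {w : W} {z : ℂ} {τ : T} (h1 : (w, z • τ) ∈ O) (h2 : s (w, z • τ) ∈ U) :
    ContMDiffAt (𝓘(ℂ, E).prod 𝓘(ℂ, ℂ)) 𝓘(ℂ, ℂ) ω (fun q : W × ℂ => g (s (q.1, q.2 • τ)))
      (w, z) := by
  have h3 : ContMDiffAt (𝓘(ℂ, E).prod 𝓘(ℂ, ℂ)) 𝓘(ℂ, T) ω (fun q : W × ℂ => q.2 • τ) (w, z) := by
    have h5 : ContMDiffAt 𝓘(ℂ, ℂ) 𝓘(ℂ, T) ω (fun y : ℂ => y • τ) z :=
      (contDiff_id.smul contDiff_const).contMDiff.contMDiffAt
    exact ContMDiffAt.comp (I' := 𝓘(ℂ, ℂ)) (g := fun y : ℂ => y • τ)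
      (f := fun q : W × ℂ => q.2) (w, z) h5 contMDiffAt_snd
  have h4 : ContMDiffAt (𝓘(ℂ, E).prod 𝓘(ℂ, ℂ)) (𝓘(ℂ, E).prod 𝓘(ℂ, T)) ω
      (fun q : W × ℂ => (q.1, q.2 • τ)) (w, z) := contMDiffAt_fst.prodMk h3
  have h5 : ContMDiffAt (𝓘(ℂ, E).prod 𝓘(ℂ, T)) 𝓘(ℂ, E) ω s (w, z • τ) :=
    hs.contMDiffAt (hO.mem_nhds h1)
  have h6 : ContMDiffAt (𝓘(ℂ, E).prod 𝓘(ℂ, ℂ)) 𝓘(ℂ, E) ω
      (fun q : W × ℂ => s (q.1, q.2 • τ)) (w, z) :=
    ContMDiffAt.comp (g := s) (w, z) h5 h4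
  exact ContMDiffAt.comp (I' := 𝓘(ℂ, E)) (g := g) (w, z) (hg _ h2) h6

/-- Continuity of the spray along a line. -/
theorem continuousAt_spray_line (hO : IsOpen O)
    (hs : ContMDiffOn (𝓘(ℂ, E).prod 𝓘(ℂ, T)) 𝓘(ℂ, E) ω s O)
    {w : W} {z : ℂ} {τ : T} (h1 : (w, z • τ) ∈ O) :
    ContinuousAt (fun q : W × ℂ => s (q.1, q.2 • τ)) (w, z) := by
  have h5 : ContinuousAt s (w, z • τ) := (hs.continuousOn).continuousAt (hO.mem_nhds h1)
  have h6 : ContinuousAt (fun q : W × ℂ => (q.1, q.2 • τ)) (w, z) := by fun_prop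
  exact ContinuousAt.comp (g := s) h5 h6

/-- Extension of holomorphic functions along spray lines at points of the hull. -/
theorem exists_extension_of_mem_hull {U K : Set W} (hK : IsCompact K)
    (hO : IsOpen O) (h0 : ∀ w, (w, (0 : T)) ∈ O) (hs0 : ∀ w, s (w, 0) = w)
    (hs : ContMDiffOn (𝓘(ℂ, E).prod 𝓘(ℂ, T)) 𝓘(ℂ, E) ω s O)
    {τ : T} {R : ℝ} (hR : 0 < R)
    (hKR : ∀ k ∈ K, ∀ z : ℂ, ‖z‖ ≤ R → (k, z • τ) ∈ O ∧ s (k, z • τ) ∈ U)
    {x : W} (hx : x ∈ hullOn E U K) {g : W → ℂ} (hg : HolOn E U g) :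
    ∃ G : ℂ → ℂ, AnalyticOnNhd ℂ G (ball 0 R) ∧ G =ᶠ[𝓝 0] fun z => g (s (x, z • τ)) := by
  -- the function `F`
  set F : W × ℂ → ℂ := fun q => g (s (q.1, q.2 • τ)) with hF
  have hFan : ∀ w z, (w, z • τ) ∈ O → s (w, z • τ) ∈ U →
      ContMDiffAt (𝓘(ℂ, E).prod 𝓘(ℂ, ℂ)) 𝓘(ℂ, ℂ) ω F (w, z) := fun w z h1 h2 =>
    contMDiffAt_spray_line hO hs hg h1 h2
  have hFan' : ∀ w z, (w, z • τ) ∈ O → s (w, z • τ) ∈ U →
      AnalyticAt ℂ (fun y : ℂ => F (w, y)) z := by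
    intro w z h1 h2
    have h3 := hFan w z h1 h2
    have h4 : ContMDiffAt 𝓘(ℂ, ℂ) (𝓘(ℂ, E).prod 𝓘(ℂ, ℂ)) ω (fun y : ℂ => ((w, y) : W × ℂ)) z :=
      contMDiffAt_const.prodMk contMDiffAt_id
    have h5 : ContMDiffAt 𝓘(ℂ, ℂ) 𝓘(ℂ, ℂ) ω (fun y : ℂ => F (w, y)) z :=
      ContMDiffAt.comp (I' := 𝓘(ℂ, E).prod 𝓘(ℂ, ℂ)) (g := F) z h3 h4
    exact (contMDiffAt_iff_contDiffAt.mp h5).analyticAt
  -- bound on `K`
  have hcont : ContinuousOn F (K ×ˢ closedBall (0 : ℂ) R) := by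
    rintro ⟨k, z⟩ ⟨hk, hz⟩
    have hz' : ‖z‖ ≤ R := by simpa only [mem_closedBall, dist_zero_right] using hz
    obtain ⟨h1, h2⟩ := hKR k hk z hz'
    exact (hFan k z h1 h2).continuousAt.continuousWithinAt
  have hcomp : IsCompact (K ×ˢ closedBall (0 : ℂ) R) := hK.prod (isCompact_closedBall 0 R)
  obtain ⟨C, hC⟩ := hcomp.exists_bound_of_continuousOn hcont
  -- Taylor coefficients
  set a : ℕ → W → ℂ := fun n w => iteratedDeriv n (fun z => F (w, z)) 0 with ha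
  have haU : ∀ n, HolOn E U (a n) := by
    intro n w hw
    refine contMDiffAt_iteratedDeriv_param (hFan w 0 ?_ ?_) n
    · simpa using h0 w
    · simpa only [zero_smul, hs0] using hw
  have hbound : ∀ n, ∀ k ∈ K, ‖a n k‖ ≤ n ! * C / R ^ n := by
    intro n k hk
    have hdiff : DiffContOnCl ℂ (fun z => F (k, z)) (ball 0 R) := by
      refine DifferentiableOn.diffContOnCl ?_
      intro z hz
      have hz' : ‖z‖ ≤ R := by
        have := closure_ball_subset_closedBall hz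
        simpa only [ge_iff_le, mem_closedBall, dist_zero_right] using this
      obtain ⟨h1, h2⟩ := hKR k hk z hz'
      exact (hFan' k z h1 h2).differentiableAt.differentiableWithinAt
    refine Complex.norm_iteratedDeriv_le_of_forall_mem_sphere_norm_le n hR hdiff ?_
    intro z hz
    exact hC (k, z) ⟨hk, sphere_subset_closedBall hz⟩
  have hxbound : ∀ n, ‖a n x‖ ≤ n ! * C / R ^ n := by
    intro n
    exact hx.2 (a n) (haU n) _ (hbound n)
  have hx0 : AnalyticAt ℂ (fun y : ℂ => F (x, y)) 0 := by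
    refine hFan' x 0 ?_ ?_
    · simpa only [zero_smul] using h0 x
    · simpa [hs0] using hx.1
  exact exists_analytic_extension hx0 hR hxbound

end Spray

end Vale.Agent.P300
end
end

section

section

open Set Filter Topology Metric
open scoped ContDiff Manifold

namespace Vale.Agent.P300

section Core

variable {E : Type*} [NormedAddCommGroup E] [NormedSpace ℂ E]
  {W : Type*} [TopologicalSpace W] [T2Space W] [ChartedSpace E W] [IsManifold 𝓘(ℂ, E) ω W]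
  {T : Type*} [NormedAddCommGroup T] [NormedSpace ℂ T]
  {O : Set (W × T)} {s : W × T → W}
  {X : Type*} [TopologicalSpace X] [T2Space X] [CompactSpace X]

/-- Spray lines starting at points of the hull of `K` in `U` stay in `U`, for a time which only
depends on `K`. -/
theorem spray_mem_of_mem_hull {U K : Set W} (hU : IsOpen U) (hK : IsCompact K)
    (hO : IsOpen O) (h0 : ∀ w, (w, (0 : T)) ∈ O) (hs0 : ∀ w, s (w, 0) = w)
    (hs : ContMDiffOn (𝓘(ℂ, E).prod 𝓘(ℂ, T)) 𝓘(ℂ, E) ω s O)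
    {p : U → X} (hp : IsCoveringMap p) {N : ℕ} {R : Set (X × (Fin N → ℂ))} (hR : IsClosed R)
    (hhom : ∀ x h, ∀ μ : ℂ, μ ≠ 0 → (x, μ • h) ∈ R → (x, h) ∈ R)
    (hfin : ∀ h : Fin N → ℂ, h ≠ 0 → {x | (x, h) ∈ R}.Finite)
    (hΦ : ∀ w ∈ U, ∃ Φ : W → Fin N → ℂ, (∀ a, HolOn E U fun w => Φ w a) ∧ Φ w ≠ 0 ∧
      ∀ w' : U, (p w', Φ w') ∈ R)
    {τ : T} {ρ : ℝ} (hρ : 1 < ρ)
    (hKρ : ∀ k ∈ K, ∀ z : ℂ, ‖z‖ ≤ ρ → (k, z • τ) ∈ O ∧ s (k, z • τ) ∈ U)
    {x : W} (hx : x ∈ hullOn E U K) (hxO : ∀ z : ℂ, ‖z‖ ≤ ρ → (x, z • τ) ∈ O)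
    {t : ℝ} (ht : t ∈ Icc (0 : ℝ) 1) : s (x, (t : ℂ) • τ) ∈ U := by
  by_contra hcon
  set γ : ℂ → W := fun z => s (x, z • τ) with hγ
  have hγcont : ∀ z : ℂ, ‖z‖ ≤ ρ → ContinuousAt γ z := by
    intro z hz
    have h1 := continuousAt_spray_line hO hs (hxO z hz)
    have h2 : ContinuousAt (fun z : ℂ => ((x, z) : W × ℂ)) z := by fun_prop
    exact ContinuousAt.comp (g := fun q : W × ℂ => s (q.1, q.2 • τ)) h1 h2
  have hnorm : ∀ t ∈ Icc (0 : ℝ) 1, ‖(t : ℂ)‖ ≤ ρ := by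
    intro t ht
    rw [Complex.norm_real, Real.norm_of_nonneg ht.1]
    exact ht.2.trans hρ.le
  have hγR : ContinuousOn (fun t : ℝ => γ t) (Icc 0 1) := by
    intro t ht
    refine ContinuousAt.continuousWithinAt ?_
    exact ContinuousAt.comp (g := γ) (hγcont t (hnorm t ht))
      Complex.continuous_ofReal.continuousAt
  -- first exit time
  set S : Set ℝ := Icc 0 1 ∩ (fun t : ℝ => γ t) ⁻¹' Uᶜ with hS
  have hSclosed : IsClosed S := hγR.preimage_isClosed_of_isClosed isClosed_Icc hU.isClosed_compl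
  have hSne : S.Nonempty := ⟨t, ht, hcon⟩
  have hSbdd : BddBelow S := ⟨0, fun t ht => ht.1.1⟩
  set b := sInf S with hb
  have hbS : b ∈ S := hSclosed.csInf_mem hSne hSbdd
  have hb0 : 0 < b := by
    rcases hbS.1.1.lt_or_eq with h | h
    · exact h
    · exfalso
      have h1 := hbS.2
      rw [← h] at h1
      apply h1
      simp only [hγ, Complex.ofReal_zero, zero_smul, hs0]
      exact hx.1
  have hIco : ∀ t ∈ Ico 0 b, γ t ∈ U := by
    intro t ht
    by_contra h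
    have h1 : t ∈ S := ⟨⟨ht.1, (ht.2.trans_le hbS.1.2).le⟩, h⟩
    exact absurd (csInf_le hSbdd h1) (not_le.mpr ht.2)
  have hIcoIcc : Ico 0 b ⊆ Icc (0 : ℝ) 1 := fun t ht => ⟨ht.1, (ht.2.trans_le hbS.1.2).le⟩
  obtain ⟨Φ, hΦhol, hΦx, hΦR⟩ := hΦ x hx.1
  -- extension of `Φ`
  have hext : ∀ a : Fin N, ∃ G : ℂ → ℂ, AnalyticOnNhd ℂ G (ball 0 ρ) ∧
      G =ᶠ[𝓝 0] fun z => Φ (s (x, z • τ)) a := fun a =>
    exists_extension_of_mem_hull hK hO h0 hs0 hs (by linarith only [hρ]) hKρ hx (hΦhol a)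
  choose G hGan hGev using hext
  set GG : ℂ → Fin N → ℂ := fun z a => G a z with hGG
  have hGGan : AnalyticOnNhd ℂ GG (ball 0 ρ) := fun z hz => by
    rw [analyticAt_pi_iff]
    exact fun a => hGan a z hz
  have hΦan : ∀ z : ℂ, ‖z‖ ≤ ρ → γ z ∈ U → AnalyticAt ℂ (fun z => Φ (γ z)) z := by
    intro z hz hzU
    rw [analyticAt_pi_iff]
    intro a
    have h3 := contMDiffAt_spray_line hO hs (hΦhol a) (hxO z hz) hzU
    have h4 : ContMDiffAt 𝓘(ℂ, ℂ) (𝓘(ℂ, E).prod 𝓘(ℂ, ℂ)) ω (fun y : ℂ => ((x, y) : W × ℂ)) z :=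
      contMDiffAt_const.prodMk contMDiffAt_id
    have h5 : ContMDiffAt 𝓘(ℂ, ℂ) 𝓘(ℂ, ℂ) ω (fun y : ℂ => Φ (s (x, y • τ)) a) z :=
      ContMDiffAt.comp (I' := 𝓘(ℂ, E).prod 𝓘(ℂ, ℂ))
        (g := fun q : W × ℂ => Φ (s (q.1, q.2 • τ)) a) z h3 h4
    exact (contMDiffAt_iff_contDiffAt.mp h5).analyticAt
  have hGev' : GG =ᶠ[𝓝 0] fun z => Φ (γ z) := by
    have h1 : ∀ᶠ z in 𝓝 (0 : ℂ), ∀ a, G a z = Φ (s (x, z • τ)) a :=
      eventually_all.mpr hGev
    filter_upwards [h1] with z hz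
    funext a
    exact hz a
  have hmemball : ∀ t ∈ Icc (0 : ℝ) 1, (t : ℂ) ∈ ball (0 : ℂ) ρ := by
    intro t ht
    rw [mem_ball_zero_iff, Complex.norm_real, Real.norm_of_nonneg ht.1]
    exact ht.2.trans_lt hρ
  have heqOn : EqOn GG (fun z => Φ (γ z)) ((fun t : ℝ => (t : ℂ)) '' Ico 0 b) := by
    refine AnalyticOnNhd.eqOn_of_preconnected_of_eventuallyEq (𝕜 := ℂ) (z₀ := 0) ?_ ?_ ?_ ?_ hGev'
    · rintro _ ⟨t, ht, rfl⟩
      exact hGGan _ (hmemball t (hIcoIcc ht))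
    · rintro _ ⟨t, ht, rfl⟩
      exact hΦan _ (hnorm t (hIcoIcc ht)) (hIco t ht)
    · exact isPreconnected_Ico.image _ Complex.continuous_ofReal.continuousOn
    · exact ⟨0, ⟨le_refl _, hb0⟩, by simp⟩
  have hGG0 : GG 0 = Φ x := by
    have := hGev'.self_of_nhds
    simpa only [hγ, zero_smul, hs0] using this
  have hnot : ¬ ∀ᶠ z in 𝓝 (b : ℂ), GG z = 0 := by
    intro h
    have h1 := hGGan.eqOn_zero_of_preconnected_of_eventuallyEq_zero
      (convex_ball (0 : ℂ) ρ).isPreconnected (hmemball b hbS.1) h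
    have h2 : GG 0 = 0 := h1 (mem_ball_self (by linarith only [hρ]))
    exact hΦx (hGG0 ▸ h2)
  -- the path in `U`
  classical
  set c : ℝ → U := fun t => if h : γ t ∈ U then ⟨γ t, h⟩ else ⟨x, hx.1⟩ with hc
  have hcval : ∀ t ∈ Ico 0 b, (c t : W) = γ t := by
    intro t ht
    simp only [hc, dif_pos (hIco t ht)]
  have hccont : ContinuousOn c (Ico 0 b) := by
    have h1 : ContinuousOn (fun t => (c t : W)) (Ico 0 b) :=
      (hγR.mono hIcoIcc).congr hcval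
    exact Topology.IsInducing.subtypeVal.continuousOn_iff.mpr h1
  have hcR : ∀ t ∈ Ico 0 b, (p (c t), GG (t : ℂ)) ∈ R := by
    intro t ht
    have h1 : GG (t : ℂ) = Φ (γ t) := heqOn ⟨t, ht, rfl⟩
    rw [h1, ← hcval t ht]
    exact hΦR (c t)
  obtain ⟨v, hv⟩ := exists_tendsto_of_analytic hp hR hhom hfin hb0 hccont
    (hGGan _ (hmemball b hbS.1)) hnot hcR
  have h1 : Tendsto (fun t => (c t : W)) (𝓝[<] b) (𝓝 (v : W)) :=
    (continuous_subtype_val.tendsto v).comp hv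
  have h2 : Tendsto (fun t : ℝ => γ t) (𝓝[<] b) (𝓝 (γ b)) := by
    have h3 : ContinuousAt (fun t : ℝ => γ t) b :=
      ContinuousAt.comp (g := γ) (hγcont b (hnorm b hbS.1)) Complex.continuous_ofReal.continuousAt
    exact h3.tendsto.mono_left nhdsWithin_le_nhds
  have h3 : Tendsto (fun t => (c t : W)) (𝓝[<] b) (𝓝 (γ b)) := by
    refine h2.congr' ?_
    filter_upwards [Ico_mem_nhdsLT hb0] with t ht
    exact (hcval t ht).symm
  have h4 : (v : W) = γ b := tendsto_nhds_unique h1 h3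
  have h5 : γ b ∈ U := by rw [← h4]; exact v.2
  exact hbS.2 h5

/-- A dominating spray reaches a given point from all nearby points. -/
theorem eventually_exists_spray_eq [FiniteDimensional ℂ E] [FiniteDimensional ℂ T]
    (hO : IsOpen O) (h0 : ∀ w, (w, (0 : T)) ∈ O) (hs0 : ∀ w, s (w, 0) = w)
    (hs : ContMDiffOn (𝓘(ℂ, E).prod 𝓘(ℂ, T)) 𝓘(ℂ, E) ω s O)
    (w₀ : W) (hdom : Function.Surjective (mfderiv 𝓘(ℂ, T) 𝓘(ℂ, E) (fun t => s (w₀, t)) 0))
    {ε : ℝ} (hε : 0 < ε) : ∀ᶠ w in 𝓝 w₀, ∃ t ∈ ball (0 : T) ε, s (w, t) = w₀ := by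
  set φ := extChartAt 𝓘(ℂ, E) w₀ with hφ
  have hφsymm : φ.symm (φ w₀) = w₀ := extChartAt_to_inv w₀
  have hsat : ContMDiffAt (𝓘(ℂ, E).prod 𝓘(ℂ, T)) 𝓘(ℂ, E) ω s (w₀, 0) :=
    hs.contMDiffAt (hO.mem_nhds (h0 w₀))
  have hφat : ContMDiffAt 𝓘(ℂ, E) 𝓘(ℂ, E) ω φ (s (w₀, 0)) := by
    rw [hs0]; exact contMDiffAt_extChartAt
  have hφs : ContMDiffAt (𝓘(ℂ, E).prod 𝓘(ℂ, T)) 𝓘(ℂ, E) ω (fun q => φ (s q)) (w₀, 0) :=
    ContMDiffAt.comp (I' := 𝓘(ℂ, E)) (g := φ) (w₀, (0 : T)) hφat hsat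
  have hF : ContDiffAt ℂ ω (fun q : E × T => φ (s (φ.symm q.1, q.2))) (φ w₀, 0) :=
    contDiffAt_chart_param (f := fun q => φ (s q)) hφs
  set F : E × T → E := fun q : E × T => φ (s (φ.symm q.1, q.2)) with hFdef
  have hFstrict : HasStrictFDerivAt F (fderiv ℂ F (φ w₀, 0)) (φ w₀, 0) :=
    hF.hasStrictFDerivAt (by simp)
  -- the partial derivative is onto
  have hpart : Function.Surjective ((fderiv ℂ F (φ w₀, 0)).comp
      (ContinuousLinearMap.inr ℂ E T)) := by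
    have h1 : HasFDerivAt (fun t : T => F (φ w₀, t)) ((fderiv ℂ F (φ w₀, 0)).comp
        (ContinuousLinearMap.inr ℂ E T)) 0 :=
      HasFDerivAt.comp (g := F) (f := fun t : T => (φ w₀, t)) 0 hFstrict.hasFDerivAt
        (hasFDerivAt_prodMk_right (φ w₀) (0 : T))
    have hmd : MDifferentiableAt 𝓘(ℂ, T) 𝓘(ℂ, E) (fun t : T => s (w₀, t)) 0 := by
      have h2 : ContMDiffAt 𝓘(ℂ, T) 𝓘(ℂ, E) ω (fun t : T => s (w₀, t)) 0 :=
        ContMDiffAt.comp (I' := 𝓘(ℂ, E).prod 𝓘(ℂ, T)) (g := s) (f := fun t : T => (w₀, t)) 0 hsat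
          (contMDiffAt_const.prodMk contMDiffAt_id)
      exact h2.mdifferentiableAt (by simp)
    have h3 := hmd.hasMFDerivAt.2
    simp only [writtenInExtChartAt, extChartAt, OpenPartialHomeomorph.extend, hs0, modelWithCornersSelf_partialEquiv, PartialEquiv.trans_refl, OpenPartialHomeomorph.toFun_eq_coe, OpenPartialHomeomorph.coe_toPartialEquiv_symm, modelWithCornersSelf_coe, range_id] at h3
    obtain ⟨L, hL⟩ : ∃ L : T →L[ℂ] E,
        L = mfderiv 𝓘(ℂ, T) 𝓘(ℂ, E) (fun t : T => s (w₀, t)) 0 := ⟨_, rfl⟩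
    have h5 : HasFDerivWithinAt (fun t : T => φ (s (w₀, t))) L univ 0 := by
      rw [hL]; exact h3
    rw [hasFDerivWithinAt_univ] at h5
    have h4 : (fderiv ℂ F (φ w₀, 0)).comp (ContinuousLinearMap.inr ℂ E T) = L := by
      refine h1.unique ?_
      simp only [hFdef, hφsymm]
      exact h5
    rw [h4, hL]
    exact hdom
  set H : E × T → E × E := fun q => (q.1, F q) with hH
  have hHstrict : HasStrictFDerivAt H ((ContinuousLinearMap.fst ℂ E T).prod
      (fderiv ℂ F (φ w₀, 0))) (φ w₀, 0) :=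
    (ContinuousLinearMap.fst ℂ E T).hasStrictFDerivAt.prodMk hFstrict
  have hsurj : (((ContinuousLinearMap.fst ℂ E T).prod
      (fderiv ℂ F (φ w₀, 0)) : E × T →L[ℂ] E × E) : E × T →ₗ[ℂ] E × E).range = ⊤ := by
    rw [LinearMap.range_eq_top]
    rintro ⟨a, b⟩
    obtain ⟨t, ht⟩ := hpart (b - fderiv ℂ F (φ w₀, 0) (a, 0))
    refine ⟨(a, t), ?_⟩
    have h1 : fderiv ℂ F (φ w₀, 0) (a, t) =
        fderiv ℂ F (φ w₀, 0) (a, 0) + fderiv ℂ F (φ w₀, 0) (0, t) := by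
      rw [← map_add]; simp only [Prod.mk_add_mk, add_zero, zero_add]
    have h2 : fderiv ℂ F (φ w₀, 0) (0, t) = b - fderiv ℂ F (φ w₀, 0) (a, 0) := by
      simpa only [ContinuousLinearMap.comp_apply, ContinuousLinearMap.inr_apply] using ht
    have h3 : fderiv ℂ F (φ w₀, 0) (a, t) = b := by rw [h1, h2]; abel
    simp [h3]
  have : CompleteSpace E := FiniteDimensional.complete ℂ E
  have : CompleteSpace T := FiniteDimensional.complete ℂ T
  have hmap := hHstrict.map_nhds_eq_of_surj hsurj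
  have hF0 : F (φ w₀, 0) = φ w₀ := by simp only [hFdef, hφsymm, hs0]
  have hH0 : H (φ w₀, 0) = (φ w₀, φ w₀) := by simp only [hH, hF0]
  rw [hH0] at hmap
  -- a good neighbourhood in the source
  have hsource : ∀ᶠ q in 𝓝 ((φ w₀, 0) : E × T), s (φ.symm q.1, q.2) ∈ φ.source := by
    have h1 : ContinuousAt (fun q : E × T => s (φ.symm q.1, q.2)) (φ w₀, 0) := by
      have h2 : ContinuousAt (fun q : E × T => (φ.symm q.1, q.2)) (φ w₀, 0) := by
        refine ContinuousAt.prodMk ?_ continuousAt_snd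
        exact ContinuousAt.comp (g := φ.symm) (continuousAt_extChartAt_symm w₀) continuousAt_fst
      refine ContinuousAt.comp (g := s) ?_ h2
      simp only [hφsymm]
      exact hsat.continuousAt
    refine h1.eventually_mem ?_
    simp only [hφsymm, hs0]
    exact extChartAt_source_mem_nhds w₀
  have hball : ∀ᶠ q in 𝓝 ((φ w₀, 0) : E × T), q.2 ∈ ball (0 : T) ε :=
    continuousAt_snd.eventually_mem (ball_mem_nhds _ hε)
  have himage : H '' {q | s (φ.symm q.1, q.2) ∈ φ.source ∧ q.2 ∈ ball (0 : T) ε} ∈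
      𝓝 ((φ w₀, φ w₀) : E × E) := by
    rw [← hmap]
    exact image_mem_map (hsource.and hball)
  have hlim : Tendsto (fun w => ((φ w, φ w₀) : E × E)) (𝓝 w₀) (𝓝 (φ w₀, φ w₀)) :=
    (continuousAt_extChartAt w₀).tendsto.prodMk_nhds tendsto_const_nhds
  filter_upwards [hlim himage, extChartAt_source_mem_nhds (I := 𝓘(ℂ, E)) w₀] with w hw hwsource
  obtain ⟨⟨u, t⟩, ⟨hq1, hq2⟩, hq3⟩ := hw
  have h1 : u = φ w := congrArg Prod.fst hq3
  have h2 : F (u, t) = φ w₀ := congrArg Prod.snd hq3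
  subst h1
  refine ⟨t, hq2, ?_⟩
  have h3 : φ.symm (φ w) = w := φ.left_inv hwsource
  simp only [hFdef, h3] at h2
  simp only [h3] at hq1
  exact φ.injOn hq1 (mem_extChartAt_source w₀) h2

theorem hullOn_subset_univ (U K : Set W) : hullOn E U K ⊆ hullOn E univ K := fun _ hx =>
  ⟨mem_univ _, fun g hg => hx.2 g fun w _ => hg w (mem_univ w)⟩

/-- Main compactness statement: an open subset `U` of a holomorphically convex manifold with a
dominating spray is holomorphically convex, if it is a covering space of a compact space `X` with a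
finite map to a projective space which is given by holomorphic functions on `U`. -/
theorem isCompact_hullOn_of_spray [FiniteDimensional ℂ E] [FiniteDimensional ℂ T]
    {U : Set W} (hU : IsOpen U)
    (hWK : ∀ K : Set W, IsCompact K → K.Nonempty → IsCompact (hullOn E univ K))
    (hO : IsOpen O) (h0 : ∀ w, (w, (0 : T)) ∈ O) (hs0 : ∀ w, s (w, 0) = w)
    (hs : ContMDiffOn (𝓘(ℂ, E).prod 𝓘(ℂ, T)) 𝓘(ℂ, E) ω s O)
    (hdom : ∀ w, Function.Surjective (mfderiv 𝓘(ℂ, T) 𝓘(ℂ, E) (fun t => s (w, t)) 0))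
    {p : U → X} (hp : IsCoveringMap p) {N : ℕ} {R : Set (X × (Fin N → ℂ))} (hR : IsClosed R)
    (hhom : ∀ x h, ∀ μ : ℂ, μ ≠ 0 → (x, μ • h) ∈ R → (x, h) ∈ R)
    (hfin : ∀ h : Fin N → ℂ, h ≠ 0 → {x | (x, h) ∈ R}.Finite)
    (hΦ : ∀ w ∈ U, ∃ Φ : W → Fin N → ℂ, (∀ a, HolOn E U fun w => Φ w a) ∧ Φ w ≠ 0 ∧
      ∀ w' : U, (p w', Φ w') ∈ R)
    {K : Set W} (hK : IsCompact K) (hKne : K.Nonempty) (hKU : K ⊆ U) :
    IsCompact (hullOn E U K) := by
  have hKW := hWK K hK hKne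
  refine hKW.of_isClosed_subset ?_ (hullOn_subset_univ U K)
  rw [← closure_subset_iff_isClosed]
  intro x hx
  -- uniform radius
  have hO1 : IsOpen (O ∩ s ⁻¹' U) := hs.continuousOn.isOpen_inter_preimage hO hU
  obtain ⟨u₁, v₁, -, hv₁, hKu₁, h0v₁, huv₁⟩ := generalized_tube_lemma hK
    (isCompact_singleton (x := (0 : T))) hO1 (by
      rintro ⟨k, t⟩ ⟨hk, ht⟩
      rw [mem_singleton_iff] at ht
      subst ht
      exact ⟨h0 k, by simpa only [mem_preimage, hs0] using hKU hk⟩)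
  obtain ⟨u₂, v₂, -, hv₂, hKu₂, h0v₂, huv₂⟩ := generalized_tube_lemma hKW
    (isCompact_singleton (x := (0 : T))) hO (by
      rintro ⟨k, t⟩ ⟨hk, ht⟩
      rw [mem_singleton_iff] at ht
      subst ht
      exact h0 k)
  obtain ⟨r, hr, hball⟩ := Metric.isOpen_iff.mp (hv₁.inter hv₂) 0
    ⟨h0v₁ rfl, h0v₂ rfl⟩
  have hsmall : ∀ τ ∈ ball (0 : T) (r / 2), ∀ z : ℂ, ‖z‖ ≤ 2 → z • τ ∈ ball (0 : T) r := by
    intro τ hτ z hz
    rw [mem_ball_zero_iff] at hτ ⊢
    rw [norm_smul]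
    nlinarith only [hτ, hz, norm_nonneg τ]
  have key : ∀ y ∈ hullOn E U K, ∀ τ ∈ ball (0 : T) (r / 2), s (y, τ) ∈ U := by
    intro y hy τ hτ
    have h1 := spray_mem_of_mem_hull hU hK hO h0 hs0 hs hp hR hhom hfin hΦ
      (τ := τ) (ρ := 2) (by norm_num)
      (fun k hk z hz => huv₁ ⟨hKu₁ hk, (hball (hsmall τ hτ z hz)).1⟩) hy
      (fun z hz => huv₂ ⟨hKu₂ (hullOn_subset_univ U K hy), (hball (hsmall τ hτ z hz)).2⟩)
      (t := 1) ⟨by norm_num, le_refl _⟩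
    simpa using h1
  have hxU : x ∈ U := by
    have h1 := eventually_exists_spray_eq hO h0 hs0 hs x (hdom x) (half_pos hr)
    have h2 : ∃ᶠ y in 𝓝 x, y ∈ hullOn E U K := mem_closure_iff_frequently.mp hx
    obtain ⟨y, hy, τ, hτ, hyx⟩ := (h2.and_eventually h1).exists
    have := key y hy τ hτ
    rwa [hyx] at this
  refine ⟨hxU, fun g hg C hC => ?_⟩
  have hne : NeBot (𝓝[hullOn E U K] x) := mem_closure_iff_nhdsWithin_neBot.mp hx
  have hgc : Tendsto (fun y => ‖g y‖) (𝓝[hullOn E U K] x) (𝓝 ‖g x‖) :=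
    (((hg x hxU).continuousAt).norm.tendsto).mono_left nhdsWithin_le_nhds
  refine le_of_tendsto hgc ?_
  filter_upwards [self_mem_nhdsWithin] with y hy
  exact hy.2 g hg C hC

end Core

end Vale.Agent.P300
end
end

section

section

open scoped Manifold ContDiff Topology
open Set Filter Metric

namespace Vale.Agent.P300

variable {E₁ : Type*} [NormedAddCommGroup E₁] [NormedSpace ℂ E₁]
  {E₂ : Type*} [NormedAddCommGroup E₂] [NormedSpace ℂ E₂]
  {Z : Type*} [NormedAddCommGroup Z] [NormedSpace ℂ Z]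
  {V : Type*} [TopologicalSpace V] [ChartedSpace E₁ V]
  {W : Type*} [TopologicalSpace W] [ChartedSpace E₂ W]
  {P : V → W × Z}

/-- A local inverse of `P` at `v`, packaged as an open partial homeomorphism. -/
theorem exists_chart (hP : IsLocalDiffeomorph 𝓘(ℂ, E₁) (𝓘(ℂ, E₂).prod 𝓘(ℂ, Z)) ω P) (v : V) :
    ∃ e : OpenPartialHomeomorph V (W × Z), v ∈ e.source ∧ (∀ u ∈ e.source, e u = P u) ∧
      ContMDiffOn (𝓘(ℂ, E₂).prod 𝓘(ℂ, Z)) 𝓘(ℂ, E₁) ω e.symm e.target := by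
  obtain ⟨Φ, hv, heq⟩ := hP v
  exact ⟨Φ.toOpenPartialHomeomorph, hv, fun u hu => (heq hu).symm, Φ.contMDiffOn_invFun⟩

/-- The chosen local chart given by `P` at `v`. -/
noncomputable def pchart
    (hP : IsLocalDiffeomorph 𝓘(ℂ, E₁) (𝓘(ℂ, E₂).prod 𝓘(ℂ, Z)) ω P) (v : V) :
    OpenPartialHomeomorph V (W × Z) :=
  Classical.choose (exists_chart hP v)

section

variable (hP : IsLocalDiffeomorph 𝓘(ℂ, E₁) (𝓘(ℂ, E₂).prod 𝓘(ℂ, Z)) ω P)

theorem mem_pchart_source (v : V) : v ∈ (pchart hP v).source :=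
  (Classical.choose_spec (exists_chart hP v)).1

theorem pchart_eq {v u : V} (hu : u ∈ (pchart hP v).source) : pchart hP v u = P u :=
  (Classical.choose_spec (exists_chart hP v)).2.1 u hu

theorem pchart_symm_contMDiffOn (v : V) :
    ContMDiffOn (𝓘(ℂ, E₂).prod 𝓘(ℂ, Z)) 𝓘(ℂ, E₁) ω (pchart hP v).symm (pchart hP v).target :=
  (Classical.choose_spec (exists_chart hP v)).2.2

theorem P_mem_target {v u : V} (hu : u ∈ (pchart hP v).source) : P u ∈ (pchart hP v).target := by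
  rw [← pchart_eq hP hu]; exact (pchart hP v).map_source hu

theorem pchart_symm_P {v u : V} (hu : u ∈ (pchart hP v).source) :
    (pchart hP v).symm (P u) = u := by
  rw [← pchart_eq hP hu]; exact (pchart hP v).left_inv hu

theorem P_pchart_symm {v : V} {y : W × Z} (hy : y ∈ (pchart hP v).target) :
    P ((pchart hP v).symm y) = y := by
  rw [← pchart_eq hP ((pchart hP v).map_target hy)]; exact (pchart hP v).right_inv hy

/-- Two local inverses of `P` agree near `P u`. -/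
theorem pchart_symm_eventuallyEq {v v' u : V} (hu : u ∈ (pchart hP v).source)
    (hu' : u ∈ (pchart hP v').source) :
    ∀ᶠ y in 𝓝 (P u), (pchart hP v).symm y = (pchart hP v').symm y := by
  have hc : ContinuousAt (pchart hP v).symm (P u) :=
    (pchart hP v).symm.continuousAt (P_mem_target hP hu)
  have h1 : ∀ᶠ y in 𝓝 (P u), (pchart hP v).symm y ∈ (pchart hP v').source := by
    apply hc.eventually_mem
    rw [pchart_symm_P hP hu]
    exact (pchart hP v').open_source.mem_nhds hu'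
  have h2 : ∀ᶠ y in 𝓝 (P u), y ∈ (pchart hP v).target :=
    (pchart hP v).open_target.mem_nhds (P_mem_target hP hu)
  filter_upwards [h1, h2] with y hy1 hy2
  have := pchart_symm_P hP hy1
  rw [P_pchart_symm hP hy2] at this
  exact this.symm

/-- The vertical curve `t ↦ P⁻¹(P(u) + (0, tτ))` through `u` computed with the chart at `v`. -/
noncomputable def vcurve (τ : Z) (v u : V) (t : ℂ) : V :=
  (pchart hP v).symm ((P u).1, (P u).2 + t • τ)

/-- The vertical derivative of a function. -/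
noncomputable def vd {Z' : Type*} [NormedAddCommGroup Z'] [NormedSpace ℂ Z']
    (h : V → Z') (τ : Z) (v : V) : Z' :=
  deriv (fun t : ℂ => h (vcurve hP τ v v t)) 0

theorem vcurve_zero {τ : Z} {v u : V} (hu : u ∈ (pchart hP v).source) :
    vcurve hP τ v u 0 = u := by
  simp only [vcurve, zero_smul, add_zero]
  exact pchart_symm_P hP hu

theorem vcurve_eventuallyEq {τ : Z} {v v' u : V} (hu : u ∈ (pchart hP v).source)
    (hu' : u ∈ (pchart hP v').source) :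
    ∀ᶠ t in 𝓝 (0 : ℂ), vcurve hP τ v u t = vcurve hP τ v' u t := by
  have hc : Tendsto (fun t : ℂ => ((P u).1, (P u).2 + t • τ)) (𝓝 0) (𝓝 (P u)) := by
    have : Continuous (fun t : ℂ => ((P u).1, (P u).2 + t • τ)) := by fun_prop
    have h0 := this.tendsto 0
    simpa only [zero_smul, add_zero, Prod.mk.eta] using h0
  exact hc.eventually (pchart_symm_eventuallyEq hP hu hu')

theorem vd_eq {Z' : Type*} [NormedAddCommGroup Z'] [NormedSpace ℂ Z']
    (h : V → Z') (τ : Z) {v u : V} (hu : u ∈ (pchart hP v).source) :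
    vd hP h τ u = deriv (fun t : ℂ => h (vcurve hP τ v u t)) 0 := by
  unfold vd
  apply Filter.EventuallyEq.deriv_eq
  filter_upwards [vcurve_eventuallyEq hP (τ := τ) (mem_pchart_source hP u) hu] with t ht
  rw [ht]

theorem vd_contMDiff [IsManifold 𝓘(ℂ, E₁) ω V] [IsManifold 𝓘(ℂ, E₂) ω W]
    {Z' : Type*} [NormedAddCommGroup Z'] [NormedSpace ℂ Z']
    {h : V → Z'} (hh : ContMDiff 𝓘(ℂ, E₁) 𝓘(ℂ, Z') ω h) (τ : Z) :
    ContMDiff 𝓘(ℂ, E₁) 𝓘(ℂ, Z') ω (vd hP h τ) := by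
  intro v
  set G : V → ℂ → Z' := fun u t => h (vcurve hP τ v u t) with hG
  have hPs : ContMDiff 𝓘(ℂ, E₁) (𝓘(ℂ, E₂).prod 𝓘(ℂ, Z)) ω P := hP.contMDiff
  have hin : ContMDiff (𝓘(ℂ, E₁).prod 𝓘(ℂ, ℂ)) (𝓘(ℂ, E₂).prod 𝓘(ℂ, Z)) ω
      (fun x : V × ℂ => ((P x.1).1, (P x.1).2 + x.2 • τ)) := by
    have h1 : ContMDiff (𝓘(ℂ, E₁).prod 𝓘(ℂ, ℂ)) (𝓘(ℂ, E₂).prod 𝓘(ℂ, Z)) ω
        (fun x : V × ℂ => P x.1) := hPs.comp contMDiff_fst
    have h2 : ContMDiff (𝓘(ℂ, E₁).prod 𝓘(ℂ, ℂ)) 𝓘(ℂ, Z) ω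
        (fun x : V × ℂ => x.2 • τ) := by
      have h3 : ContMDiff 𝓘(ℂ, ℂ) 𝓘(ℂ, Z) ω (fun t : ℂ => t • τ) :=
        (ContinuousLinearMap.smulRight (1 : ℂ →L[ℂ] ℂ) τ).contMDiff
      exact h3.comp contMDiff_snd
    exact (contMDiff_fst.comp h1).prodMk ((contMDiff_snd.comp h1).add h2)
  have hmem : P v ∈ (pchart hP v).target := P_mem_target hP (mem_pchart_source hP v)
  have hsy : ContMDiffAt (𝓘(ℂ, E₂).prod 𝓘(ℂ, Z)) 𝓘(ℂ, E₁) ω (pchart hP v).symm
      ((P v).1, (P v).2 + (0 : ℂ) • τ) := by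
    rw [zero_smul, add_zero]
    exact (pchart_symm_contMDiffOn hP v).contMDiffAt ((pchart hP v).open_target.mem_nhds hmem)
  have hGs : ContMDiffAt (𝓘(ℂ, E₁).prod 𝓘(ℂ, ℂ)) 𝓘(ℂ, Z') ω (Function.uncurry G) (v, 0) := by
    have h1 : ContMDiffAt (𝓘(ℂ, E₁).prod 𝓘(ℂ, ℂ)) 𝓘(ℂ, E₁) ω
        (fun x : V × ℂ => (pchart hP v).symm ((P x.1).1, (P x.1).2 + x.2 • τ)) (v, 0) :=
      ContMDiffAt.comp (v, (0 : ℂ)) hsy hin.contMDiffAt
    exact (hh _).comp (v, (0 : ℂ)) h1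
  have hd := ContMDiffAt.mfderiv (n := ω) (m := ω) G (fun _ => (0 : ℂ)) hGs contMDiffAt_const
    (by simp)
  have hd : ContMDiffAt 𝓘(ℂ, E₁) 𝓘(ℂ, ℂ →L[ℂ] Z') ω (fun x => fderiv ℂ (G x) 0) v := by
    have h1 := inTangentCoordinates_model_space (I := 𝓘(ℂ, ℂ)) (I' := 𝓘(ℂ, Z'))
      (fun _ : V => (0 : ℂ))
      (fun x : V => G x 0) (fun x : V => (fderiv ℂ (G x) 0 : ℂ →L[ℂ] Z')) v
    rw [← h1]
    simpa only [mfderiv_eq_fderiv] using hd
  have hev := (ContinuousLinearMap.apply ℂ Z' (1 : ℂ)).contMDiff (n := ω)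
  have hd2 : ContMDiffAt 𝓘(ℂ, E₁) 𝓘(ℂ, Z') ω
      (fun x : V => deriv (G x) 0) v := by
    have := hev.contMDiffAt.comp v hd
    refine this.congr_of_eventuallyEq ?_
    filter_upwards with x
    rfl
  refine hd2.congr_of_eventuallyEq ?_
  filter_upwards [(pchart hP v).open_source.mem_nhds (mem_pchart_source hP v)] with u hu
  exact vd_eq hP h τ hu

theorem differentiableAt_comp_symm
    {Z' : Type*} [NormedAddCommGroup Z'] [NormedSpace ℂ Z']
    {h : V → Z'} (hh : ContMDiff 𝓘(ℂ, E₁) 𝓘(ℂ, Z') ω h) (v : V) {y : W} {a τ : Z} {t : ℂ}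
    (ht : (y, a + t • τ) ∈ (pchart hP v).target) :
    DifferentiableAt ℂ (fun t : ℂ => h ((pchart hP v).symm (y, a + t • τ))) t := by
  have hin : ContMDiff 𝓘(ℂ, ℂ) (𝓘(ℂ, E₂).prod 𝓘(ℂ, Z)) ω
      (fun t : ℂ => ((y, a + t • τ) : W × Z)) := by
    have h3 : ContMDiff 𝓘(ℂ, ℂ) 𝓘(ℂ, Z) ω (fun t : ℂ => t • τ) :=
      (ContinuousLinearMap.smulRight (1 : ℂ →L[ℂ] ℂ) τ).contMDiff
    exact contMDiff_const.prodMk (contMDiff_const.add h3)
  have hsy : ContMDiffAt (𝓘(ℂ, E₂).prod 𝓘(ℂ, Z)) 𝓘(ℂ, E₁) ω (pchart hP v).symm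
      (y, a + t • τ) :=
    (pchart_symm_contMDiffOn hP v).contMDiffAt ((pchart hP v).open_target.mem_nhds ht)
  have h1 : ContMDiffAt 𝓘(ℂ, ℂ) 𝓘(ℂ, E₁) ω
      (fun t : ℂ => (pchart hP v).symm (y, a + t • τ)) t :=
    ContMDiffAt.comp t hsy hin.contMDiffAt
  have h2 : ContMDiffAt 𝓘(ℂ, ℂ) 𝓘(ℂ, Z') ω
      (fun t : ℂ => h ((pchart hP v).symm (y, a + t • τ))) t :=
    (hh _).comp t h1
  exact (contMDiffAt_iff_contDiffAt.1 h2).differentiableAt (by simp)

theorem vd_cauchy [LocallyCompactSpace W] [ProperSpace Z]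
    (Z' : Type*) [NormedAddCommGroup Z'] [NormedSpace ℂ Z'] {K : Set V} (hK : IsCompact K) :
    ∃ K' : Set V, IsCompact K' ∧ ∃ C : ℝ, 0 ≤ C ∧ ∀ h : V → Z',
      ContMDiff 𝓘(ℂ, E₁) 𝓘(ℂ, Z') ω h → ∀ M : ℝ, 0 ≤ M → (∀ x ∈ K', ‖h x‖ ≤ M) →
      ∀ v ∈ K, ∀ τ : Z, ‖vd hP h τ v‖ ≤ C * M * ‖τ‖ := by
  refine hK.induction_on (p := fun K => ∃ K' : Set V, IsCompact K' ∧ ∃ C : ℝ, 0 ≤ C ∧
    ∀ h : V → Z', ContMDiff 𝓘(ℂ, E₁) 𝓘(ℂ, Z') ω h → ∀ M : ℝ, 0 ≤ M → (∀ x ∈ K', ‖h x‖ ≤ M) →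
      ∀ v ∈ K, ∀ τ : Z, ‖vd hP h τ v‖ ≤ C * M * ‖τ‖) ?_ ?_ ?_ ?_
  · exact ⟨∅, isCompact_empty, 0, le_rfl, fun _ _ _ _ _ v hv => absurd hv (by simp)⟩
  · rintro s t hst ⟨K', hK', C, hC, H⟩
    exact ⟨K', hK', C, hC, fun h hh M hM hb v hv τ => H h hh M hM hb v (hst hv) τ⟩
  · rintro s t ⟨K₁, hK₁, C₁, hC₁, H₁⟩ ⟨K₂, hK₂, C₂, hC₂, H₂⟩
    refine ⟨K₁ ∪ K₂, hK₁.union hK₂, C₁ + C₂, by (clear * - hC₁ hC₂; positivity), fun h hh M hM hb v hv τ => ?_⟩
    rcases hv with hv | hv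
    · refine (H₁ h hh M hM (fun x hx => hb x (Or.inl hx)) v hv τ).trans ?_
      gcongr
      linarith
    · refine (H₂ h hh M hM (fun x hx => hb x (Or.inr hx)) v hv τ).trans ?_
      gcongr
      linarith
  · intro v₀ _
    set e := pchart hP v₀ with he
    have hmem : P v₀ ∈ e.target := P_mem_target hP (mem_pchart_source hP v₀)
    obtain ⟨A, hA, B, hB, hAB⟩ := mem_nhds_prod_iff.1 (e.open_target.mem_nhds hmem)
    obtain ⟨N, hN, hNA, hNc⟩ := local_compact_nhds hA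
    obtain ⟨r, hr, hrB⟩ := Metric.mem_nhds_iff.1 hB
    have hsub : N ×ˢ closedBall (P v₀).2 (r / 2) ⊆ e.target := by
      rintro ⟨y, ζ⟩ ⟨hy, hζ⟩
      refine hAB ⟨hNA hy, hrB ?_⟩
      rw [mem_closedBall] at hζ
      rw [mem_ball]
      exact lt_of_le_of_lt hζ (by linarith only [hr])
    have hcomp : IsCompact (e.symm '' (N ×ˢ closedBall (P v₀).2 (r / 2))) :=
      (hNc.prod (isCompact_closedBall _ _)).image_of_continuousOn
        (e.symm.continuousOn.mono hsub)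
    refine ⟨e.source ∩ P ⁻¹' (N ×ˢ ball (P v₀).2 (r / 4)), ?_, _, hcomp, 4 / r, by positivity, ?_⟩
    · apply mem_nhdsWithin_of_mem_nhds
      refine inter_mem (e.open_source.mem_nhds (mem_pchart_source hP v₀)) ?_
      have hcont : ContinuousAt P v₀ := (hP.contMDiff.continuous).continuousAt
      exact hcont.preimage_mem_nhds (prod_mem_nhds hN (ball_mem_nhds _ (by positivity)))
    · rintro h hh M hM hb v ⟨hv1, hv2⟩ τ
      rw [vd_eq hP h τ hv1]
      rcases eq_or_ne τ 0 with rfl | hτ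
      · have : (fun t : ℂ => h (vcurve hP 0 v₀ v t)) = fun _ => h (vcurve hP 0 v₀ v 0) := by
          funext t; simp [vcurve]
        rw [this, deriv_const]
        simp
      have hτ' : 0 < ‖τ‖ := norm_pos_iff.2 hτ
      set R : ℝ := r / 4 / ‖τ‖ with hR
      have hRpos : 0 < R := by positivity
      have hin : ∀ t ∈ closedBall (0 : ℂ) R, ((P v).1, (P v).2 + t • τ) ∈
          N ×ˢ closedBall (P v₀).2 (r / 2) := by
        intro t ht
        refine ⟨hv2.1, ?_⟩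
        have h1 : dist (P v).2 (P v₀).2 < r / 4 := hv2.2
        rw [mem_closedBall, dist_zero_right] at ht
        rw [mem_closedBall]
        have h2 : ‖t • τ‖ ≤ r / 4 := by
          rw [norm_smul]
          calc ‖t‖ * ‖τ‖ ≤ R * ‖τ‖ := by (clear * - ht hτ; gcongr)
            _ = r / 4 := by rw [hR]; (clear * - hτ hr; field_simp)
        calc dist ((P v).2 + t • τ) (P v₀).2 ≤ dist ((P v).2 + t • τ) (P v).2
              + dist (P v).2 (P v₀).2 := dist_triangle _ _ _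
          _ ≤ r / 4 + r / 4 := by
              refine add_le_add ?_ h1.le
              rw [dist_eq_norm]
              simpa only [add_sub_cancel_left] using h2
          _ = r / 2 := by ring
      have hd : DiffContOnCl ℂ (fun t : ℂ => h (vcurve hP τ v₀ v t)) (ball 0 R) := by
        apply DifferentiableOn.diffContOnCl_ball (U := closedBall 0 R) _ Subset.rfl
        intro t ht
        exact (differentiableAt_comp_symm hP hh v₀ (hsub (hin t ht))).differentiableWithinAt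
      have := Complex.norm_deriv_le_of_forall_mem_sphere_norm_le (C := M) hRpos hd (fun t ht => by
        apply hb
        exact ⟨_, hin t (sphere_subset_closedBall ht), rfl⟩)
      refine this.trans (le_of_eq ?_)
      rw [hR]
      (clear * - hτ hr; field_simp)

/-- Chain rule for the vertical derivative of `z ∘ γ⁻¹`. -/
theorem vd_chain {γ : V ≃ₜ V} (hγ : ContMDiff 𝓘(ℂ, E₁) 𝓘(ℂ, E₁) ω γ.symm)
    (hfib : ∀ u u', (P u).1 = (P u').1 → (P (γ.symm u)).1 = (P (γ.symm u')).1)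
    {v₀ w : V} (hw : w ∈ (pchart hP v₀).source) (τ : Z) :
    ∃ α : ℂ → Z, HasDerivAt α (vd hP (fun u => (P (γ.symm u)).2) τ (γ w)) 0 ∧ α 0 = (P w).2 ∧
      ∀ᶠ t in 𝓝 (0 : ℂ), (P (γ ((pchart hP v₀).symm ((P w).1, α t)))).2
        = (P (γ w)).2 + t • τ := by
  set x := γ w with hx
  set h : V → Z := fun u => (P (γ.symm u)).2 with hh
  have hPs : ContMDiff 𝓘(ℂ, E₁) (𝓘(ℂ, E₂).prod 𝓘(ℂ, Z)) ω P := hP.contMDiff
  have hhs : ContMDiff 𝓘(ℂ, E₁) 𝓘(ℂ, Z) ω h := contMDiff_snd.comp (hPs.comp hγ)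
  have hxs := mem_pchart_source hP x
  have hx0 : ((P x).1, (P x).2 + (0 : ℂ) • τ) ∈ (pchart hP x).target := by
    rw [zero_smul, add_zero]; exact P_mem_target hP hxs
  have hc0 : vcurve hP τ x x 0 = x := vcurve_zero hP hxs
  have hcont : ContinuousAt (vcurve hP τ x x) 0 := by
    have h1 : Continuous (fun t : ℂ => (((P x).1, (P x).2 + t • τ) : W × Z)) := by fun_prop
    have h2 := (pchart hP x).symm.continuousAt hx0
    exact ContinuousAt.comp (f := fun t : ℂ => (((P x).1, (P x).2 + t • τ) : W × Z)) (x := 0)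
      h2 h1.continuousAt
  have hPc : ∀ᶠ t in 𝓝 (0 : ℂ), P (vcurve hP τ x x t) = ((P x).1, (P x).2 + t • τ) := by
    have h1 : Continuous (fun t : ℂ => (((P x).1, (P x).2 + t • τ) : W × Z)) := by fun_prop
    have h2 : ∀ᶠ t in 𝓝 (0 : ℂ), (((P x).1, (P x).2 + t • τ) : W × Z) ∈ (pchart hP x).target :=
      h1.continuousAt.eventually_mem ((pchart hP x).open_target.mem_nhds hx0)
    filter_upwards [h2] with t ht
    exact P_pchart_symm hP ht
  have hsrc : ∀ᶠ t in 𝓝 (0 : ℂ), γ.symm (vcurve hP τ x x t) ∈ (pchart hP v₀).source := by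
    have h1 : ContinuousAt (fun t => γ.symm (vcurve hP τ x x t)) 0 :=
      γ.symm.continuous.continuousAt.comp hcont
    apply h1.eventually_mem
    have h2 : γ.symm (vcurve hP τ x x 0) = w := by rw [hc0, hx]; simp
    show (pchart hP v₀).source ∈ 𝓝 (γ.symm (vcurve hP τ x x 0))
    rw [h2]
    exact (pchart hP v₀).open_source.mem_nhds hw
  refine ⟨fun t => h (vcurve hP τ x x t), ?_, ?_, ?_⟩
  · exact (differentiableAt_comp_symm hP hhs x hx0).hasDerivAt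
  · show (P (γ.symm (vcurve hP τ x x 0))).2 = (P w).2
    rw [hc0, hx, Homeomorph.symm_apply_apply]
  · filter_upwards [hPc, hsrc] with t h1 h2
    have h3 : P (γ.symm (vcurve hP τ x x t)) = ((P w).1, h (vcurve hP τ x x t)) := by
      refine Prod.ext ?_ rfl
      have h4 : (P (vcurve hP τ x x t)).1 = (P x).1 := by rw [h1]
      have h5 := hfib _ _ h4
      rw [h5, hx]
      simp
    rw [← h3, pchart_symm_P hP h2]
    simp [h1]

end

end Vale.Agent.P300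
end
end

section

section

open scoped Manifold ContDiff Topology
open Set Filter Metric

namespace Vale.Agent.P300

variable {E₁ : Type*} [NormedAddCommGroup E₁] [NormedSpace ℂ E₁]
  {E₂ : Type*} [NormedAddCommGroup E₂] [NormedSpace ℂ E₂] [ProperSpace E₂]
  {Z : Type*} [NormedAddCommGroup Z] [NormedSpace ℂ Z] [ProperSpace Z]
  {V : Type*} [TopologicalSpace V] [ChartedSpace E₁ V]
  {W : Type*} [TopologicalSpace W] [ChartedSpace E₂ W]
  {P : V → W × Z}

/-- Uniform local surjectivity: if the translates `γ` have vertical derivatives bounded below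
near `w₀`, then a fixed compact neighbourhood of `w₀` is mapped by `P ∘ γ` onto all points
`(F w₀, ζ')` with `ζ'` in a ball of uniform radius around `z (γ w)`. -/
theorem local_surj [IsManifold 𝓘(ℂ, E₁) ω V] [IsManifold 𝓘(ℂ, E₂) ω W]
    (hP : IsLocalDiffeomorph 𝓘(ℂ, E₁) (𝓘(ℂ, E₂).prod 𝓘(ℂ, Z)) ω P) (w₀ : V) :
    ∃ Cu : Set V, IsCompact Cu ∧ ∀ M C' : ℝ, 0 < M → 0 < C' → ∃ U ∈ 𝓝 w₀, ∃ δ > 0,
      ∀ γ : V ≃ₜ V, ContMDiff 𝓘(ℂ, E₁) 𝓘(ℂ, E₁) ω γ → ContMDiff 𝓘(ℂ, E₁) 𝓘(ℂ, E₁) ω γ.symm →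
      (∀ u u', (P u).1 = (P u').1 → (P (γ.symm u)).1 = (P (γ.symm u')).1) →
      (∀ u ∈ Cu, ‖(P (γ u)).2‖ ≤ M) →
      ∀ w ∈ U, (∀ τ : Z, ‖vd hP (fun u => (P (γ.symm u)).2) τ (γ w)‖ ≤ C' * ‖τ‖) →
      ∀ ζ' : Z, dist ζ' (P (γ w)).2 ≤ δ → ∃ u ∈ Cu, (P u).1 = (P w₀).1 ∧ (P (γ u)).2 = ζ' := by
  set e := pchart hP w₀ with he
  set y₀ : W := (P w₀).1 with hy₀
  set ζ₀ : Z := (P w₀).2 with hζ₀
  set φ := chartAt E₂ y₀ with hφ
  have hy₀s : y₀ ∈ φ.source := mem_chart_source E₂ y₀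
  have hmem : (y₀, ζ₀) ∈ e.target := P_mem_target hP (mem_pchart_source hP w₀)
  set κ : E₂ × Z → V := fun x => e.symm (φ.symm x.1, x.2) with hκ
  set c₀ : E₂ × Z := (φ y₀, ζ₀) with hc₀
  have hφ0 : φ.symm (φ y₀) = y₀ := φ.left_inv hy₀s
  have hD : ∀ᶠ x in 𝓝 c₀, x.1 ∈ φ.target ∧ (φ.symm x.1, x.2) ∈ e.target := by
    have h1 : ∀ᶠ x : E₂ × Z in 𝓝 c₀, x.1 ∈ φ.target :=
      continuousAt_fst.eventually_mem (φ.open_target.mem_nhds (φ.map_source hy₀s))
    have h2 : ContinuousAt (fun x : E₂ × Z => (φ.symm x.1, x.2)) c₀ := by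
      refine ContinuousAt.prodMk ?_ continuousAt_snd
      have h3 : ContinuousAt φ.symm (Prod.fst c₀) := φ.symm.continuousAt (φ.map_source hy₀s)
      exact h3.comp continuousAt_fst
    have h3 : ∀ᶠ x : E₂ × Z in 𝓝 c₀, (φ.symm x.1, x.2) ∈ e.target := by
      apply h2.eventually_mem
      refine e.open_target.mem_nhds ?_
      simp only [hc₀]
      rw [hφ0]; exact hmem
    exact h1.and h3
  obtain ⟨R₀, hR₀, hball⟩ := Metric.eventually_nhds_iff_ball.1 hD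
  set R : ℝ := R₀ / 4 with hR
  have hRpos : 0 < R := by (clear * - hR₀; positivity)
  have hsub : ∀ x ∈ closedBall c₀ (2 * R), x.1 ∈ φ.target ∧ (φ.symm x.1, x.2) ∈ e.target := by
    intro x hx
    refine hball x ?_
    rw [mem_closedBall] at hx
    rw [mem_ball]
    exact lt_of_le_of_lt hx (by rw [hR]; linarith only [hR₀])
  -- smoothness of κ on the ball
  have hκs : ContMDiffOn 𝓘(ℂ, E₂ × Z) 𝓘(ℂ, E₁) ω κ (closedBall c₀ (2 * R)) := by
    have hf : ContMDiffOn 𝓘(ℂ, E₂ × Z) 𝓘(ℂ, E₂) ω (fun x : E₂ × Z => φ.symm x.1)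
        (closedBall c₀ (2 * R)) := by
      have h1 : ContMDiffOn 𝓘(ℂ, E₂) 𝓘(ℂ, E₂) ω φ.symm φ.target := contMDiffOn_chart_symm
      exact h1.comp (ContinuousLinearMap.fst ℂ E₂ Z).contMDiff.contMDiffOn
        (fun x hx => (hsub x hx).1)
    have hg : ContMDiffOn 𝓘(ℂ, E₂ × Z) (𝓘(ℂ, E₂).prod 𝓘(ℂ, Z)) ω
        (fun x : E₂ × Z => (φ.symm x.1, x.2)) (closedBall c₀ (2 * R)) :=
      hf.prodMk (ContinuousLinearMap.snd ℂ E₂ Z).contMDiff.contMDiffOn
    exact (pchart_symm_contMDiffOn hP w₀).comp hg (fun x hx => (hsub x hx).2)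
  have hκP : ∀ x ∈ closedBall c₀ (2 * R), P (κ x) = (φ.symm x.1, x.2) := fun x hx =>
    P_pchart_symm hP (hsub x hx).2
  refine ⟨κ '' closedBall c₀ (2 * R),
    (isCompact_closedBall _ _).image_of_continuousOn hκs.continuousOn, ?_⟩
  intro M C' hM hC'
  set M₁ : ℝ := ‖c₀‖ + 2 * R + M with hM₁
  have hM₁pos : 0 < M₁ := by (clear * - hR₀ hM; positivity)
  set C₁ : ℝ := 1 + C' * (1 + 2 * M₁ / R) with hC₁
  have hC₁pos : 0 < C₁ := by (clear * - hC' hR₀ hM; positivity)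
  obtain ⟨δ, hδ, ε, hε, hεR, hQ⟩ := quant_surj (R := R) (M := M₁) (C := C₁) hRpos hM₁pos hC₁pos
  -- the neighbourhood U
  have hPc : ContinuousAt P w₀ := hP.contMDiff.continuous.continuousAt
  have hψ : ContinuousAt (fun w => ((φ (P w).1, (P w).2) : E₂ × Z)) w₀ := by
    refine ContinuousAt.prodMk ?_ (continuousAt_snd.comp hPc)
    exact ContinuousAt.comp (f := fun w => (P w).1) (φ.continuousAt hy₀s)
      (continuousAt_fst.comp hPc)
  have hU : ∀ᶠ w in 𝓝 w₀, w ∈ e.source ∧ (P w).1 ∈ φ.source ∧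
      dist ((φ (P w).1, (P w).2) : E₂ × Z) c₀ < min R δ := by
    have h1 : ∀ᶠ w in 𝓝 w₀, w ∈ e.source := e.open_source.mem_nhds (mem_pchart_source hP w₀)
    have h2 : ∀ᶠ w in 𝓝 w₀, (P w).1 ∈ φ.source :=
      (continuousAt_fst.comp hPc).eventually_mem (φ.open_source.mem_nhds hy₀s)
    have h3 : ∀ᶠ w in 𝓝 w₀, dist ((φ (P w).1, (P w).2) : E₂ × Z) c₀ < min R δ :=
      hψ.eventually_mem (s := ball c₀ (min R δ)) (ball_mem_nhds _ (by (clear * - hR₀ hδ; positivity)))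
    exact h1.and (h2.and h3)
  refine ⟨_, hU, δ, hδ, ?_⟩
  rintro γ hγs hγs' hfib hbd w ⟨hw1, hw2, hw3⟩ hvd ζ' hζ'
  set c : E₂ × Z := (φ (P w).1, (P w).2) with hc
  have hcR : dist c c₀ < R := lt_of_lt_of_le hw3 (min_le_left _ _)
  have hcδ : dist c c₀ < δ := lt_of_lt_of_le hw3 (min_le_right _ _)
  have hbsub : ball c R ⊆ closedBall c₀ (2 * R) := by
    intro x hx
    rw [mem_ball] at hx
    rw [mem_closedBall]
    calc dist x c₀ ≤ dist x c + dist c c₀ := dist_triangle _ _ _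
      _ ≤ 2 * R := by linarith only [hcR, hx]
  set Ξ : E₂ × Z → E₂ × Z := fun x => (x.1, (P (γ (κ x))).2) with hΞ
  have hsnd : ContMDiffOn 𝓘(ℂ, E₂ × Z) 𝓘(ℂ, Z) ω (fun x => (P (γ (κ x))).2)
      (closedBall c₀ (2 * R)) := by
    have h1 : ContMDiff 𝓘(ℂ, E₁) 𝓘(ℂ, Z) ω (fun u => (P (γ u)).2) :=
      contMDiff_snd.comp (hP.contMDiff.comp hγs)
    exact h1.comp_contMDiffOn hκs
  have hΞs : ContDiffOn ℂ ω Ξ (ball c R) :=
    contDiff_fst.contDiffOn.prodMk ((hsnd.mono hbsub).contDiffOn)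
  have hΞb : ∀ x ∈ ball c R, ‖Ξ x‖ ≤ M₁ := by
    intro x hx
    have hx' := hbsub hx
    rw [Prod.norm_def]
    refine max_le ?_ ?_
    · have h1 : ‖x‖ ≤ ‖c₀‖ + 2 * R := by
        rw [mem_closedBall, dist_eq_norm] at hx'
        calc ‖x‖ = ‖c₀ + (x - c₀)‖ := by congr 1; abel
          _ ≤ ‖c₀‖ + ‖x - c₀‖ := norm_add_le _ _
          _ ≤ ‖c₀‖ + 2 * R := by (clear * - hx'; gcongr)
      have h2 : ‖x.1‖ ≤ ‖x‖ := norm_fst_le x
      simp only [hΞ]
      linarith only [hM, h1, h2]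
    · have h1 := hbd (κ x) ⟨x, hx', rfl⟩
      simp only [hΞ]
      have : 0 ≤ ‖c₀‖ + 2 * R := by (clear * - hR₀; positivity)
      linarith only [h1, this]
  have hΞd : HasFDerivAt Ξ (fderiv ℂ Ξ c) c := by
    have := (hΞs.differentiableOn (by simp)).differentiableAt (isOpen_ball.mem_nhds
      (mem_ball_self hRpos))
    exact this.hasFDerivAt
  have hnorm : ‖fderiv ℂ Ξ c‖ ≤ 2 * M₁ / R :=
    norm_fderiv_le_of_bound hRpos (hΞs.differentiableOn (by simp)) hΞb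
  -- the derivative of the first component
  have hfst : ∀ x : E₂ × Z, (fderiv ℂ Ξ c x).1 = x.1 := by
    intro x
    have h1 : HasFDerivAt (fun x => (Ξ x).1) ((ContinuousLinearMap.fst ℂ E₂ Z).comp
        (fderiv ℂ Ξ c)) c := hΞd.fst
    have h2 : HasFDerivAt (fun x : E₂ × Z => (Ξ x).1) (ContinuousLinearMap.fst ℂ E₂ Z) c :=
      (ContinuousLinearMap.fst ℂ E₂ Z).hasFDerivAt
    have h3 := h1.unique h2
    have h4 := DFunLike.congr_fun h3 x
    simpa only [ContinuousLinearMap.comp_apply, ContinuousLinearMap.coe_fst'] using h4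
  have hφP : φ.symm (φ (P w).1) = (P w).1 := φ.left_inv hw2
  -- vertical derivative
  have hvert : ∀ τ : Z, fderiv ℂ Ξ c (0, vd hP (fun u => (P (γ.symm u)).2) τ (γ w)) = (0, τ) := by
    intro τ
    obtain ⟨α, hα1, hα2, hα3⟩ := vd_chain hP (γ := γ) hγs' hfib hw1 τ
    set v := vd hP (fun u => (P (γ.symm u)).2) τ (γ w)
    have h1 : HasDerivAt (fun t : ℂ => ((φ (P w).1, α t) : E₂ × Z)) (0, v) 0 :=
      HasDerivAt.prodMk (hasDerivAt_const (0 : ℂ) _) hα1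
    have h2 : HasDerivAt (fun t : ℂ => Ξ (φ (P w).1, α t)) (fderiv ℂ Ξ c (0, v)) 0 := by
      have h0 : ((φ (P w).1, α 0) : E₂ × Z) = c := by rw [hα2]
      have hΞd' : HasFDerivAt Ξ (fderiv ℂ Ξ c) ((φ (P w).1, α 0) : E₂ × Z) := by
        rw [h0]; exact hΞd
      exact hΞd'.comp_hasDerivAt (0 : ℂ) h1
    have h3 : HasDerivAt (fun t : ℂ => ((φ (P w).1, (P (γ w)).2 + t • τ) : E₂ × Z))
        (0, τ) 0 := by
      have : HasDerivAt (fun t : ℂ => (P (γ w)).2 + t • τ) τ 0 := by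
        simpa using ((hasDerivAt_id (0 : ℂ)).smul_const τ).const_add ((P (γ w)).2)
      exact HasDerivAt.prodMk (hasDerivAt_const (0 : ℂ) _) this
    have h4 : (fun t : ℂ => Ξ (φ (P w).1, α t)) =ᶠ[𝓝 0]
        (fun t : ℂ => ((φ (P w).1, (P (γ w)).2 + t • τ) : E₂ × Z)) := by
      filter_upwards [hα3] with t ht
      simp only [hΞ, hκ, hφP]
      rw [ht]
    exact (h2.congr_of_eventuallyEq h4.symm).unique h3
  have hinv : ∀ y : E₂ × Z, ∃ u : E₂ × Z, fderiv ℂ Ξ c u = y ∧ ‖u‖ ≤ C₁ * ‖y‖ := by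
    rintro ⟨η, τ⟩
    set b : Z := (fderiv ℂ Ξ c (η, 0)).2 with hb
    have hb1 : ‖b‖ ≤ 2 * M₁ / R * ‖η‖ := by
      calc ‖b‖ ≤ ‖fderiv ℂ Ξ c (η, 0)‖ := norm_snd_le _
        _ ≤ ‖fderiv ℂ Ξ c‖ * ‖((η, 0) : E₂ × Z)‖ := ContinuousLinearMap.le_opNorm _ _
        _ ≤ 2 * M₁ / R * ‖η‖ := by
            have : ‖((η, 0) : E₂ × Z)‖ = ‖η‖ := by simp only [Prod.norm_def, norm_zero, norm_nonneg, sup_of_le_left]
            rw [this]; (clear * - hnorm; gcongr)
    set v := vd hP (fun u => (P (γ.symm u)).2) (τ - b) (γ w) with hv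
    refine ⟨(η, v), ?_, ?_⟩
    · have h1 : ((η, v) : E₂ × Z) = (η, 0) + (0, v) := by simp
      rw [h1, map_add, hvert (τ - b)]
      refine Prod.ext ?_ ?_
      · simp only [Prod.fst_add, hfst, add_zero]
      · simp [← hb]
    · have hη : ‖η‖ ≤ ‖((η, τ) : E₂ × Z)‖ := norm_fst_le (η, τ)
      have hτ : ‖τ‖ ≤ ‖((η, τ) : E₂ × Z)‖ := norm_snd_le (η, τ)
      set n := ‖((η, τ) : E₂ × Z)‖
      have hn : 0 ≤ n := norm_nonneg _
      have hv1 : ‖v‖ ≤ C' * (n + 2 * M₁ / R * n) := by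
        calc ‖v‖ ≤ C' * ‖τ - b‖ := hvd _
          _ ≤ C' * (‖τ‖ + ‖b‖) := by gcongr; exact norm_sub_le _ _
          _ ≤ C' * (n + 2 * M₁ / R * n) := by
              gcongr
              exact hb1.trans (by (clear * - hη hR₀ hM; gcongr))
      rw [Prod.norm_def]
      refine max_le ?_ ?_
      · simp only
        calc ‖η‖ ≤ n := hη
          _ ≤ C₁ * n := by
            rw [hC₁]
            have : 0 ≤ C' * (1 + 2 * M₁ / R) * n := by (clear * - hC' hR₀ hM; positivity)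
            nlinarith only [this]
      · simp only
        calc ‖v‖ ≤ C' * (n + 2 * M₁ / R * n) := hv1
          _ = C' * (1 + 2 * M₁ / R) * n := by ring
          _ ≤ C₁ * n := by
            rw [hC₁]
            nlinarith only [hn]
  have hsurj := hQ Ξ c hΞs hΞb hinv
  have hΞc : Ξ c = (φ (P w).1, (P (γ w)).2) := by
    simp only [hΞ, hκ, hc, hφP]
    have : e.symm ((P w).1, (P w).2) = w := pchart_symm_P hP hw1
    rw [this]
  have htarget : ((φ y₀, ζ') : E₂ × Z) ∈ closedBall (Ξ c) δ := by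
    rw [hΞc, mem_closedBall, Prod.dist_eq]
    refine max_le ?_ hζ'
    simp only
    have h1 : dist (φ y₀) (φ (P w).1) ≤ dist c₀ c := by
      rw [Prod.dist_eq]
      exact le_max_left _ _
    rw [dist_comm c₀ c] at h1
    linarith only [hcδ, h1]
  obtain ⟨x, hx, hxΞ⟩ := hsurj htarget
  have hxb : x ∈ closedBall c₀ (2 * R) := by
    apply hbsub
    rw [mem_ball]
    exact lt_of_le_of_lt (mem_closedBall.1 hx) hεR
  have h1 : x.1 = φ y₀ := congrArg Prod.fst hxΞ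
  have h2 : (P (γ (κ x))).2 = ζ' := congrArg Prod.snd hxΞ
  refine ⟨κ x, ⟨x, hxb, rfl⟩, ?_, h2⟩
  rw [hκP x hxb]
  simp only [h1, hφ0]

end Vale.Agent.P300
end
end

section

section

open scoped Manifold ContDiff Topology
open Set Filter

namespace Vale.Agent.P300

section Deck

variable {V X : Type*} [TopologicalSpace V] [TopologicalSpace X]

/-- A simply connected covering is Galois: deck transformations act transitively on fibres. -/
theorem exists_deck [SimplyConnectedSpace V] [LocallyPathConnectedSpace V]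
    {p : V → X} (hp : IsCoveringMap p) {a b : V} (hab : p a = p b) :
    ∃ γ : V ≃ₜ V, (∀ v, p (γ v) = p v) ∧ γ a = b := by
  obtain ⟨g, ⟨hga, hg⟩, -⟩ := hp.existsUnique_continuousMap_lifts
    (⟨p, hp.continuous⟩ : C(V, X)) a b hab.symm
  obtain ⟨k, ⟨hkb, hk⟩, -⟩ := hp.existsUnique_continuousMap_lifts
    (⟨p, hp.continuous⟩ : C(V, X)) b a hab
  have hg' : ∀ v, p (g v) = p v := fun v => congrFun hg v
  have hk' : ∀ v, p (k v) = p v := fun v => congrFun hk v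
  have h1 : (k ∘ g : V → V) = id := by
    refine hp.eq_of_comp_eq (k.continuous.comp g.continuous) continuous_id ?_ a ?_
    · funext v; simp [hk', hg']
    · simp [hga, hkb]
  have h2 : (g ∘ k : V → V) = id := by
    refine hp.eq_of_comp_eq (g.continuous.comp k.continuous) continuous_id ?_ b ?_
    · funext v; simp [hk', hg']
    · simp [hga, hkb]
  refine ⟨⟨⟨g, k, fun v => congrFun h1 v, fun v => congrFun h2 v⟩, g.continuous, k.continuous⟩,
    hg', hga⟩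

/-- There is a compact set meeting every fibre. -/
theorem exists_compact_fundamental [LocallyCompactSpace V] [CompactSpace X]
    {p : V → X} (hp : IsCoveringMap p) (hps : Function.Surjective p) :
    ∃ F : Set V, IsCompact F ∧ ∀ v, ∃ w ∈ F, p w = p v := by
  choose s hs using hps
  choose N hNc hN using fun v : V => exists_compact_mem_nhds v
  have hnh : ∀ x : X, p '' (N (s x)) ∈ 𝓝 x := by
    intro x
    have := hp.isOpenMap.image_mem_nhds (hN (s x))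
    rwa [hs x] at this
  obtain ⟨t, ht⟩ := CompactSpace.elim_nhds_subcover (fun x : X => p '' (N (s x))) hnh
  refine ⟨⋃ x ∈ t, N (s x), t.isCompact_biUnion (fun x _ => hNc _), fun v => ?_⟩
  have : p v ∈ ⋃ x ∈ t, p '' (N (s x)) := by rw [ht]; trivial
  simp only [mem_iUnion] at this
  obtain ⟨x, hx, w, hw, hwv⟩ := this
  exact ⟨w, mem_biUnion hx hw, hwv⟩

end Deck

section Holo

variable {E : Type*} [NormedAddCommGroup E] [NormedSpace ℂ E]
  {V X : Type*} [TopologicalSpace V] [ChartedSpace E V]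
  [TopologicalSpace X] [ChartedSpace E X]

/-- Deck transformations are holomorphic. -/
theorem deck_contMDiff {p : V → X} (hp : IsLocalDiffeomorph 𝓘(ℂ, E) 𝓘(ℂ, E) ω p)
    {γ : V → V} (hγc : Continuous γ) (hγ : ∀ v, p (γ v) = p v) :
    ContMDiff 𝓘(ℂ, E) 𝓘(ℂ, E) ω γ := by
  intro v
  have h := hp (γ v)
  have hloc := h.localInverse_contMDiffAt
  rw [hγ v] at hloc
  have hcomp : ContMDiffAt 𝓘(ℂ, E) 𝓘(ℂ, E) ω (h.localInverse ∘ p) v :=
    hloc.comp v (hp v).contMDiffAt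
  refine hcomp.congr_of_eventuallyEq ?_
  have hmem : ∀ᶠ u in 𝓝 v, γ u ∈ h.localInverse.target :=
    hγc.continuousAt.eventually_mem
      (h.localInverse.open_target.mem_nhds h.localInverse_mem_target)
  filter_upwards [hmem] with u hu
  have := h.localInverse_left_inv hu
  rw [hγ u] at this
  exact this.symm

end Holo

end Vale.Agent.P300
end
end

section

section

open scoped Manifold ContDiff Topology
open Set Filter Metric

namespace Vale.Agent.P300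

theorem ultra_tendsto {α β : Type*} [TopologicalSpace β] (𝒰 : Ultrafilter α) {g : α → β}
    {C : Set β} (hC : IsCompact C) (h : ∀ᶠ a in (𝒰 : Filter α), g a ∈ C) :
    ∃ b ∈ C, Tendsto g 𝒰 (𝓝 b) := by
  have h1 : ((𝒰.map g : Ultrafilter β) : Filter β) ≤ 𝓟 C := by
    rw [le_principal_iff]; exact h
  obtain ⟨b, hb, hb2⟩ := hC.ultrafilter_le_nhds _ h1
  exact ⟨b, hb, hb2⟩

theorem ultra_finite {α β : Type*} (𝒰 : Ultrafilter α) {g : α → β}
    {S : Set β} (hS : S.Finite) (h : ∀ᶠ a in (𝒰 : Filter α), g a ∈ S) :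
    ∃ b, ∀ᶠ a in (𝒰 : Filter α), g a = b := by
  have h1 : S ∈ (𝒰.map g) := h
  obtain ⟨b, -, hb⟩ := (Ultrafilter.finite_biUnion_mem_iff (f := 𝒰.map g) (s := fun b => {b})
    hS).1 (by simpa only [biUnion_of_singleton, Ultrafilter.mem_map] using h1)
  exact ⟨b, hb⟩

section Hull

variable {E : Type*} [NormedAddCommGroup E] [NormedSpace ℂ E]
  {V : Type*} [TopologicalSpace V] [ChartedSpace E V]

theorem isClosed_hull (K : Set V) : IsClosed (holomorphicHull E K) := by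
  have : holomorphicHull E K = ⋂ (g : V → ℂ) (_ : ContMDiff 𝓘(ℂ, E) 𝓘(ℂ) ω g)
      (C : ℝ) (_ : ∀ x ∈ K, ‖g x‖ ≤ C), {v | ‖g v‖ ≤ C} := by
    ext v
    simp only [holomorphicHull, mem_ofPred_eq, mem_iInter]
  rw [this]
  refine isClosed_iInter fun g => isClosed_iInter fun hg => isClosed_iInter fun C =>
    isClosed_iInter fun _ => ?_
  exact isClosed_le (continuous_norm.comp hg.continuous) continuous_const

theorem hull_norm_le {Z' : Type*} [NormedAddCommGroup Z'] [NormedSpace ℂ Z'] {K : Set V} {v : V}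
    (hv : v ∈ holomorphicHull E K) {h : V → Z'} (hh : ContMDiff 𝓘(ℂ, E) 𝓘(ℂ, Z') ω h) {C : ℝ}
    (hC : 0 ≤ C) (hb : ∀ x ∈ K, ‖h x‖ ≤ C) : ‖h v‖ ≤ C := by
  by_cases h0 : h v = 0
  · rw [h0, norm_zero]; exact hC
  obtain ⟨g, hg1, hg2⟩ := exists_dual_vector ℂ (h v) (by simpa using h0)
  have h1 : ContMDiff 𝓘(ℂ, E) 𝓘(ℂ) ω (fun x => g (h x)) := g.contMDiff.comp hh
  have h2 := hv _ h1 C (fun x hx => by
    calc ‖g (h x)‖ ≤ ‖g‖ * ‖h x‖ := g.le_opNorm _
      _ = ‖h x‖ := by rw [hg1, one_mul]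
      _ ≤ C := hb x hx)
  rw [hg2] at h2
  simpa only [ge_iff_le, Complex.coe_algebraMap, Complex.norm_real, norm_norm] using h2

end Hull

variable {E₁ : Type*} [NormedAddCommGroup E₁] [NormedSpace ℂ E₁]
  {E₂ : Type*} [NormedAddCommGroup E₂] [NormedSpace ℂ E₂] [ProperSpace E₂]
  {Z : Type*} [NormedAddCommGroup Z] [NormedSpace ℂ Z] [ProperSpace Z]
  {V : Type*} [TopologicalSpace V] [ChartedSpace E₁ V]
  {W : Type*} [TopologicalSpace W] [ChartedSpace E₂ W]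

omit [ProperSpace E₂] in
theorem hull_map {F : V → W} (hF : ContMDiff 𝓘(ℂ, E₁) 𝓘(ℂ, E₂) ω F) {K : Set V} {v : V}
    (hv : v ∈ holomorphicHull E₁ K) : F v ∈ holomorphicHull E₂ (F '' K) := by
  intro g hg C hC
  exact hv _ (hg.comp hF) C (fun x hx => hC _ ⟨x, hx, rfl⟩)

theorem relative_siegel_aux [LocallyCompactSpace V]
    [IsManifold 𝓘(ℂ, E₁) ω V] [IsManifold 𝓘(ℂ, E₂) ω W]
    [T2Space V] [PreconnectedSpace V] [T2Space W] [PreconnectedSpace W] [Nonempty V]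
    {X Y : Type*} [TopologicalSpace X] [CompactSpace X] [T2Space X]
    [TopologicalSpace Y] [T2Space Y]
    {p : V → X} (hp : IsCoveringMap p) (hps : Function.Surjective p)
    (hpG : ∀ a b, p a = p b → ∃ γ : V ≃ₜ V, (∀ v, p (γ v) = p v) ∧ γ a = b)
    (hphol : ∀ γ : V → V, Continuous γ → (∀ v, p (γ v) = p v) →
      ContMDiff 𝓘(ℂ, E₁) 𝓘(ℂ, E₁) ω γ)
    {q : W → Y} (hq : IsCoveringMap q)
    (hqG : ∀ a b, q a = q b → ∃ γ : W ≃ₜ W, (∀ v, q (γ v) = q v) ∧ γ a = b)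
    {f : X → Y} {F : V → W} (hFf : ∀ v, q (F v) = f (p v))
    (hW : HolomorphicallyConvex E₂ W) {z : V → Z}
    (hP : IsLocalDiffeomorph 𝓘(ℂ, E₁) (𝓘(ℂ, E₂).prod 𝓘(ℂ, Z)) ω (fun v => (F v, z v)))
    (hfin : ∀ (y : W) (ζ : Z), {v | F v = y ∧ z v = ζ}.Finite)
    (hbdd : ∀ L : Set W, IsCompact L → ∃ M : ℝ, ∀ v, F v ∈ L → ‖z v‖ ≤ M) :
    HolomorphicallyConvex E₁ V := by
  classical
  have : LocallyCompactSpace W := ChartedSpace.locallyCompactSpace E₂ W
  have hFs : ContMDiff 𝓘(ℂ, E₁) 𝓘(ℂ, E₂) ω F := contMDiff_fst.comp hP.contMDiff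
  have hzs : ContMDiff 𝓘(ℂ, E₁) 𝓘(ℂ, Z) ω z := contMDiff_snd.comp hP.contMDiff
  have hFc : Continuous F := hFs.continuous
  have hzc : Continuous z := hzs.continuous
  intro K hK hKne
  obtain ⟨F₀, hF₀, hF₀s⟩ := exists_compact_fundamental hp hps
  choose om hom1 hom2 using hF₀s
  choose γ hγ1 hγ2 using fun v => hpG (om v) v (hom2 v)
  -- induced deck transformations on W
  have hbar : ∀ g : V ≃ₜ V, (∀ v, p (g v) = p v) → ∃ d : W ≃ₜ W, (∀ y, q (d y) = q y) ∧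
      ∀ v, F (g v) = d (F v) := by
    intro g hg
    obtain ⟨v₀⟩ := ‹Nonempty V›
    obtain ⟨d, hd1, hd2⟩ := hqG (F v₀) (F (g v₀)) (by rw [hFf, hFf, hg])
    refine ⟨d, hd1, fun v => ?_⟩
    have := hq.eq_of_comp_eq (g₁ := fun v => F (g v)) (g₂ := fun v => d (F v))
      (hFc.comp g.continuous) (d.continuous.comp hFc) (by
        funext v
        simp only [Function.comp_apply, hd1, hFf, hg]) v₀ hd2.symm
    exact congrFun this v
  have hKW : IsCompact (holomorphicHull E₂ (F '' K)) :=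
    hW _ (hK.image hFc) (hKne.image F)
  rw [isCompact_iff_ultrafilter_le_nhds]
  intro 𝒰 h𝒰
  have hhull : ∀ᶠ v in (𝒰 : Filter V), v ∈ holomorphicHull E₁ K := le_principal_iff.1 h𝒰
  -- it suffices to find a compact set in the ultrafilter
  suffices hsuff : ∃ C : Set V, IsCompact C ∧ ∀ᶠ v in (𝒰 : Filter V), v ∈ C by
    obtain ⟨C, hC, hCU⟩ := hsuff
    obtain ⟨x, -, hx⟩ := hC.ultrafilter_le_nhds 𝒰 (le_principal_iff.2 hCU)
    refine ⟨x, ?_, hx⟩
    exact (isClosed_hull K).mem_of_tendsto (f := id) (b := (𝒰 : Filter V)) hx hhull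
  -- limits
  obtain ⟨w₀, -, hw₀⟩ := ultra_tendsto 𝒰 (g := om) hF₀ (Eventually.of_forall hom1)
  obtain ⟨ys, -, hys⟩ := ultra_tendsto 𝒰 (g := F) hKW
    (hhull.mono fun v hv => hull_map hFs hv)
  obtain ⟨Mz, hMz⟩ := hbdd _ hKW
  obtain ⟨ζs, -, hζs⟩ := ultra_tendsto 𝒰 (g := z) (isCompact_closedBall (0 : Z) Mz)
    (hhull.mono fun v hv => by
      rw [mem_closedBall, dist_zero_right]
      exact hMz v (hull_map hFs hv))
  have hFom : Tendsto (fun v => F (om v)) 𝒰 (𝓝 (F w₀)) := (hFc.tendsto w₀).comp hw₀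
  have hqq : q (F w₀) = q ys := by
    have h1 : Tendsto (fun v => q (F (om v))) 𝒰 (𝓝 (q (F w₀))) :=
      (hq.continuous.tendsto _).comp hFom
    have h2 : Tendsto (fun v => q (F v)) 𝒰 (𝓝 (q ys)) := (hq.continuous.tendsto _).comp hys
    have h3 : (fun v => q (F (om v))) = fun v => q (F v) := by
      funext v; rw [hFf, hFf, hom2]
    rw [h3] at h1
    exact tendsto_nhds_unique h1 h2
  obtain ⟨d, hd1, hd2⟩ := hqG _ _ hqq
  -- eventually the induced transformation is `d`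
  have hdF : ∀ᶠ v in (𝒰 : Filter V), d (F (om v)) = F v := by
    obtain ⟨N, hNo, hNm, hinj⟩ := hq.isLocalHomeomorph.isLocallyInjective ys
    have hN : N ∈ 𝓝 ys := hNo.mem_nhds hNm
    have h1 : Tendsto (fun v => d (F (om v))) 𝒰 (𝓝 ys) := by
      have := (d.continuous.tendsto (F w₀)).comp hFom
      rw [hd2] at this
      exact this
    filter_upwards [h1.eventually_mem hN, hys.eventually_mem hN] with v hv1 hv2
    refine hinj hv1 hv2 ?_
    rw [hd1, hFf, hFf, hom2]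
  have hγd : ∀ᶠ v in (𝒰 : Filter V), ∀ u, F (γ v u) = d (F u) := by
    filter_upwards [hdF] with v hv
    obtain ⟨d', hd'1, hd'2⟩ := hbar (γ v) (hγ1 v)
    have h1 : (d' : W → W) = d := by
      refine hq.eq_of_comp_eq d'.continuous d.continuous ?_ (F (om v)) ?_
      · funext y; simp [hd'1, hd1]
      · rw [hv, ← hd'2, hγ2]
    intro u
    rw [hd'2, h1]
  have hγd' : ∀ᶠ v in (𝒰 : Filter V), ∀ u, F ((γ v).symm u) = d.symm (F u) := by
    filter_upwards [hγd] with v hv u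
    have := hv ((γ v).symm u)
    rw [Homeomorph.apply_symm_apply] at this
    rw [this, Homeomorph.symm_apply_apply]
  -- bound on the vertical derivatives
  obtain ⟨K', hK', C, hC, hcau⟩ := vd_cauchy hP Z hK
  obtain ⟨M₁', hM₁'⟩ := hbdd (d.symm '' (F '' K')) ((hK'.image hFc).image d.symm.continuous)
  set M₁ := max M₁' 0 with hM₁
  have hsymm : ∀ v u, p ((γ v).symm u) = p u := by
    intro v u
    have := hγ1 v ((γ v).symm u)
    rw [Homeomorph.apply_symm_apply] at this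
    exact this.symm
  have hγs : ∀ v, ContMDiff 𝓘(ℂ, E₁) 𝓘(ℂ, E₁) ω (γ v) := fun v =>
    hphol _ (γ v).continuous (hγ1 v)
  have hγs' : ∀ v, ContMDiff 𝓘(ℂ, E₁) 𝓘(ℂ, E₁) ω (γ v).symm := fun v =>
    hphol _ (γ v).symm.continuous (hsymm v)
  have hvd : ∀ᶠ v in (𝒰 : Filter V), ∀ τ : Z,
      ‖vd hP (fun u => z ((γ v).symm u)) τ v‖ ≤ C * M₁ * ‖τ‖ := by
    filter_upwards [hγd', hhull] with v hv hvh τ
    have hs : ContMDiff 𝓘(ℂ, E₁) 𝓘(ℂ, Z) ω (fun u => z ((γ v).symm u)) := hzs.comp (hγs' v)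
    refine hull_norm_le hvh (vd_contMDiff hP hs τ) (by (clear * - hC; positivity)) (fun x hx => ?_)
    refine hcau _ hs M₁ (le_max_right _ _) (fun u hu => ?_) x hx τ
    refine (hM₁' _ ?_).trans (le_max_left _ _)
    rw [hv]
    exact ⟨_, ⟨u, hu, rfl⟩, rfl⟩
  -- uniform local surjectivity
  obtain ⟨Cu, hCu, hloc⟩ := local_surj hP w₀
  obtain ⟨M₂', hM₂'⟩ := hbdd (d '' (F '' Cu)) ((hCu.image hFc).image d.continuous)
  obtain ⟨U, hU, δ, hδ, hloc2⟩ := hloc (max M₂' 1) (C * M₁ + 1) (by (clear * -; positivity)) (by (clear * - hC; positivity))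
  have hex : ∀ᶠ v in (𝒰 : Filter V), ∃ u, u ∈ Cu ∧ F u = F w₀ ∧ z (γ v u) = ζs := by
    have hd : ∀ᶠ v in (𝒰 : Filter V), dist (z v) ζs < δ := hζs (ball_mem_nhds ζs hδ)
    filter_upwards [hw₀.eventually_mem hU, hd, hvd, hγd, hγd'] with v h1 h2 h3 h4 h5
    obtain ⟨u, hu1, hu2, hu3⟩ := hloc2 (γ v) (hγs v) (hγs' v) (fun u u' huu => by
        simp only [h5]
        simp only at huu
        rw [huu])
      (fun u hu => by
        refine (hM₂' _ ?_).trans (le_max_left _ _)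
        simp only [h4]
        exact ⟨_, ⟨u, hu, rfl⟩, rfl⟩)
      (om v) h1 (fun τ => by
        simp only [hγ2]
        refine (h3 τ).trans ?_
        gcongr
        linarith only []) ζs (by
        simp only [hγ2]
        rw [dist_comm]
        exact h2.le)
    exact ⟨u, hu1, hu2, hu3⟩
  obtain ⟨u, hu⟩ := Filter.skolem.1 hex
  have hfib : ∀ᶠ v in (𝒰 : Filter V), γ v (u v) ∈ {x | F x = ys ∧ z x = ζs} := by
    filter_upwards [hu, hγd] with v hv hv2
    refine ⟨?_, hv.2.2⟩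
    rw [hv2, hv.2.1, hd2]
  obtain ⟨s, hs⟩ := ultra_finite 𝒰 (hfin ys ζs) hfib
  obtain ⟨us, -, hus⟩ := ultra_tendsto 𝒰 hCu (hu.mono fun v hv => hv.1)
  have hpu : ∀ᶠ v in (𝒰 : Filter V), p (u v) = p s := by
    filter_upwards [hs] with v hv
    rw [← hv, hγ1]
  have hpus : p us = p s := by
    have h1 : Tendsto (fun v => p (u v)) 𝒰 (𝓝 (p us)) := (hp.continuous.tendsto _).comp hus
    have h2 : Tendsto (fun v => p (u v)) 𝒰 (𝓝 (p s)) :=
      tendsto_const_nhds.congr' (hpu.mono fun v hv => hv.symm)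
    exact tendsto_nhds_unique h1 h2
  have hueq : ∀ᶠ v in (𝒰 : Filter V), u v = us := by
    obtain ⟨N, hNo, hNm, hinj⟩ := hp.isLocalHomeomorph.isLocallyInjective us
    have hN : N ∈ 𝓝 us := hNo.mem_nhds hNm
    filter_upwards [hus.eventually_mem hN, hpu] with v hv1 hv2
    exact hinj hv1 (mem_of_mem_nhds hN) (by rw [hv2, hpus])
  have hboth : ∀ᶠ v in (𝒰 : Filter V), γ v us = s := by
    filter_upwards [hs, hueq] with v hv1 hv2
    rw [← hv2]; exact hv1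
  obtain ⟨v₁, hv₁⟩ := hboth.exists
  refine ⟨γ v₁ '' F₀, hF₀.image (γ v₁).continuous, ?_⟩
  filter_upwards [hboth] with v hv
  have h1 : (γ v : V → V) = γ v₁ := by
    refine hp.eq_of_comp_eq (γ v).continuous (γ v₁).continuous ?_ us (by rw [hv, hv₁])
    funext x; simp [hγ1]
  refine ⟨om v, hom1 v, ?_⟩
  rw [← h1, hγ2]

end Vale.Agent.P300
end
end

section

section

open scoped Manifold ContDiff Topology
open Set Filter Metric

namespace Vale.Agent.P300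

theorem relative_siegel
    {E₁ : Type*} [NormedAddCommGroup E₁] [NormedSpace ℂ E₁] [FiniteDimensional ℂ E₁]
    {E₂ : Type*} [NormedAddCommGroup E₂] [NormedSpace ℂ E₂] [FiniteDimensional ℂ E₂]
    {Z : Type*} [NormedAddCommGroup Z] [NormedSpace ℂ Z] [FiniteDimensional ℂ Z]
    {X : Type*} [TopologicalSpace X] [ChartedSpace E₁ X] [T2Space X] [CompactSpace X]
    {V : Type*} [TopologicalSpace V] [ChartedSpace E₁ V] [IsManifold 𝓘(ℂ, E₁) ω V] [T2Space V]
    [SimplyConnectedSpace V]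
    {Y : Type*} [TopologicalSpace Y] [ChartedSpace E₂ Y] [T2Space Y]
    {W : Type*} [TopologicalSpace W] [ChartedSpace E₂ W] [IsManifold 𝓘(ℂ, E₂) ω W] [T2Space W]
    [ConnectedSpace W]
    {p : V → X} (hp : IsHolomorphicCovering E₁ p)
    {q : W → Y} (hq : IsHolomorphicCovering E₂ q) (hqG : IsGaloisCovering q)
    {f : X → Y} {F : V → W} (hFf : ∀ v, q (F v) = f (p v))
    (hW : HolomorphicallyConvex E₂ W) {z : V → Z}
    (hP : IsLocalDiffeomorph 𝓘(ℂ, E₁) (𝓘(ℂ, E₂).prod 𝓘(ℂ, Z)) ω (fun v => (F v, z v)))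
    (hfin : ∀ (y : W) (ζ : Z), {v | F v = y ∧ z v = ζ}.Finite)
    (hbdd : ∀ L : Set W, IsCompact L → Bornology.IsBounded (z '' (F ⁻¹' L))) :
    HolomorphicallyConvex E₁ V := by
  have : ProperSpace E₁ := FiniteDimensional.proper ℂ E₁
  have : ProperSpace E₂ := FiniteDimensional.proper ℂ E₂
  have : ProperSpace Z := FiniteDimensional.proper ℂ Z
  have : LocallyCompactSpace V := ChartedSpace.locallyCompactSpace E₁ V
  have : LocallyPathConnectedSpace V := by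
    let _ : NormedSpace ℝ E₁ := NormedSpace.restrictScalars ℝ ℂ E₁
    exact ChartedSpace.locallyPathConnectedSpace E₁ V
  refine relative_siegel_aux hp.1 hp.2.1 (fun a b hab => exists_deck hp.1 hab)
    (fun γ hγ hγ' => deck_contMDiff hp.2.2 hγ hγ') hq.1 hqG hFf hW hP hfin ?_
  intro L hL
  obtain ⟨M, hM⟩ := (hbdd L hL).exists_norm_le
  exact ⟨M, fun v hv => hM _ ⟨v, hv, rfl⟩⟩

end Vale.Agent.P300
end
end

section

section

open Set Filter Topology Metric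
open scoped ContDiff Manifold

namespace Vale.Agent.P300

theorem contDiff_det (E : Type*) [NormedAddCommGroup E] [NormedSpace ℂ E]
    [FiniteDimensional ℂ E] : ContDiff ℂ ω (fun L : E →L[ℂ] E => L.det) := by
  classical
  let b := Module.finBasis ℂ E
  have h : (fun L : E →L[ℂ] E => L.det) = fun L => ∑ σ : Equiv.Perm (Fin (Module.finrank ℂ E)),
      ((Equiv.Perm.sign σ : ℤ) : ℂ) *
        ∏ i, (LinearMap.toContinuousLinearMap (b.coord (σ i))) (L (b i)) := by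
    funext L
    rw [ContinuousLinearMap.det, ← LinearMap.det_toMatrix b, Matrix.det_apply']
    simp only [LinearMap.toMatrix_apply, ContinuousLinearMap.coe_coe, LinearMap.coe_toContinuousLinearMap', Module.Basis.coord_apply]
  rw [h]
  refine ContDiff.sum fun σ _ => contDiff_const.mul (contDiff_prod fun i _ => ?_)
  exact (LinearMap.toContinuousLinearMap (b.coord (σ i))).contDiff.comp
    (contDiff_id.clm_apply contDiff_const)

section Param

variable {E : Type*} [NormedAddCommGroup E] [NormedSpace ℂ E]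
  {W : Type*} [TopologicalSpace W] [ChartedSpace E W] [IsManifold 𝓘(ℂ, E) ω W]
  {F : Type*} [NormedAddCommGroup F] [NormedSpace ℂ F]
  {G : Type*} [NormedAddCommGroup G] [NormedSpace ℂ G]

/-- The derivative in a vector parameter of a holomorphic map is holomorphic. -/
theorem contMDiffAt_fderiv_param {f : W × F → G} {w : W} {z : F}
    (hf : ContMDiffAt (𝓘(ℂ, E).prod 𝓘(ℂ, F)) 𝓘(ℂ, G) ω f (w, z)) :
    ContMDiffAt 𝓘(ℂ, E) 𝓘(ℂ, F →L[ℂ] G) ω (fun w => fderiv ℂ (fun ξ => f (w, ξ)) z) w := by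
  have h0 := contDiffAt_chart_param hf
  set g : E × F → G := fun q : E × F => f ((extChartAt 𝓘(ℂ, E) w).symm q.1, q.2) with hg
  have h2 : ContDiffAt ℂ ω (fun u : E => ((u, z) : E × F)) (extChartAt 𝓘(ℂ, E) w w) :=
    contDiffAt_id.prodMk contDiffAt_const
  have h1 : ContDiffAt ℂ ω (fun u : E => (fderiv ℂ g (u, z)).comp
      (ContinuousLinearMap.inr ℂ E F)) (extChartAt 𝓘(ℂ, E) w w) := by
    have h3 : ContDiffAt ℂ ω (fun u : E => fderiv ℂ g (u, z)) (extChartAt 𝓘(ℂ, E) w w) :=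
      (h0.fderiv_right (m := ω) (by simp)).comp (extChartAt 𝓘(ℂ, E) w w) h2
    exact h3.clm_comp contDiffAt_const
  have h4 : ContDiffAt ℂ ω (fun u : E => fderiv ℂ (fun ξ => g (u, ξ)) z)
      (extChartAt 𝓘(ℂ, E) w w) := by
    refine h1.congr_of_eventuallyEq ?_
    have h5 : ∀ᶠ q in 𝓝 (extChartAt 𝓘(ℂ, E) w w, z), ContDiffAt ℂ ω g q :=
      h0.eventually (by simp)
    have h6 : Tendsto (fun u : E => ((u, z) : E × F)) (𝓝 (extChartAt 𝓘(ℂ, E) w w))
        (𝓝 (extChartAt 𝓘(ℂ, E) w w, z)) := h2.continuousAt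
    filter_upwards [h6.eventually h5] with u hu
    have h7 : HasFDerivAt g (fderiv ℂ g (u, z)) (u, z) :=
      (hu.differentiableAt (by simp)).hasFDerivAt
    exact (HasFDerivAt.comp (g := g) (f := fun ξ : F => (u, ξ)) z h7
      (hasFDerivAt_prodMk_right u z)).fderiv
  have h3 := (contMDiffAt_iff_contDiffAt.mpr h4).comp w contMDiffAt_extChartAt
  refine h3.congr_of_eventuallyEq ?_
  filter_upwards [extChartAt_source_mem_nhds (I := 𝓘(ℂ, E)) w] with y hy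
  simp only [Function.comp_apply, hg, (extChartAt 𝓘(ℂ, E) w).left_inv hy]

end Param

section Jac

variable {E : Type*} [NormedAddCommGroup E] [NormedSpace ℂ E]
  {W : Type*} [TopologicalSpace W] [ChartedSpace E W]
  {T : Type*} [NormedAddCommGroup T] [NormedSpace ℂ T]
  {O : Set (W × T)} {s : W × T → W}
  {X : Type*} [TopologicalSpace X] [ChartedSpace E X] [IsManifold 𝓘(ℂ, E) ω X]
  {U : Set W} {p : W → X}

/-- The Jacobian determinant of `ξ ↦ c (p (s (w, A ξ)))` at `0`. -/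
noncomputable def jac (s : W × T → W) (p : W → X) (A : E →L[ℂ] T)
    (c : OpenPartialHomeomorph X E) (w : W) : ℂ :=
  (fderiv ℂ (fun ξ : E => c (p (s (w, A ξ)))) 0).det

theorem contMDiffAt_jac_map (hO : IsOpen O) (h0 : ∀ w, (w, (0 : T)) ∈ O)
    (hs0 : ∀ w, s (w, 0) = w)
    (hs : ContMDiffOn (𝓘(ℂ, E).prod 𝓘(ℂ, T)) 𝓘(ℂ, E) ω s O)
    (hp : ∀ w ∈ U, ContMDiffAt 𝓘(ℂ, E) 𝓘(ℂ, E) ω p w) (A : E →L[ℂ] T)
    {c : OpenPartialHomeomorph X E} (hc : c ∈ atlas E X) {w : W} (hw : w ∈ U)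
    (hwc : p w ∈ c.source) :
    ContMDiffAt (𝓘(ℂ, E).prod 𝓘(ℂ, E)) 𝓘(ℂ, E) ω
      (fun q : W × E => c (p (s (q.1, A q.2)))) (w, 0) := by
  have h1 : ContMDiffAt (𝓘(ℂ, E).prod 𝓘(ℂ, E)) (𝓘(ℂ, E).prod 𝓘(ℂ, T)) ω
      (fun q : W × E => (q.1, A q.2)) (w, 0) := by
    refine contMDiffAt_fst.prodMk ?_
    exact ContMDiffAt.comp (I' := 𝓘(ℂ, E)) (g := A) (f := fun q : W × E => q.2) (w, 0)
      A.contDiff.contMDiff.contMDiffAt contMDiffAt_snd
  have h2 : ContMDiffAt (𝓘(ℂ, E).prod 𝓘(ℂ, T)) 𝓘(ℂ, E) ω s (w, 0) :=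
    hs.contMDiffAt (hO.mem_nhds (h0 w))
  have h3 : ContMDiffAt (𝓘(ℂ, E).prod 𝓘(ℂ, E)) 𝓘(ℂ, E) ω
      (fun q : W × E => s (q.1, A q.2)) (w, 0) :=
    ContMDiffAt.comp_of_eq (g := s) h2 h1 (by simp)
  have h4 : ContMDiffAt (𝓘(ℂ, E).prod 𝓘(ℂ, E)) 𝓘(ℂ, E) ω
      (fun q : W × E => p (s (q.1, A q.2))) (w, 0) :=
    ContMDiffAt.comp_of_eq (g := p) (hp w hw) h3 (by simp only [map_zero, hs0])
  have h5 : ContMDiffAt 𝓘(ℂ, E) 𝓘(ℂ, E) ω c (p w) :=
    contMDiffAt_of_mem_maximalAtlas (IsManifold.subset_maximalAtlas hc) hwc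
  exact ContMDiffAt.comp_of_eq (g := c) h5 h4 (by simp [hs0])

theorem differentiableAt_jac_map (hO : IsOpen O) (h0 : ∀ w, (w, (0 : T)) ∈ O)
    (hs0 : ∀ w, s (w, 0) = w)
    (hs : ContMDiffOn (𝓘(ℂ, E).prod 𝓘(ℂ, T)) 𝓘(ℂ, E) ω s O)
    (hp : ∀ w ∈ U, ContMDiffAt 𝓘(ℂ, E) 𝓘(ℂ, E) ω p w) (A : E →L[ℂ] T)
    {c : OpenPartialHomeomorph X E} (hc : c ∈ atlas E X) {w : W} (hw : w ∈ U)
    (hwc : p w ∈ c.source) :
    ContDiffAt ℂ ω (fun ξ : E => c (p (s (w, A ξ)))) 0 := by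
  have h1 := contMDiffAt_jac_map hO h0 hs0 hs hp A hc hw hwc
  have h2 : ContMDiffAt 𝓘(ℂ, E) (𝓘(ℂ, E).prod 𝓘(ℂ, E)) ω (fun ξ : E => ((w, ξ) : W × E)) 0 :=
    contMDiffAt_const.prodMk contMDiffAt_id
  exact contMDiffAt_iff_contDiffAt.mp
    (ContMDiffAt.comp (g := fun q : W × E => c (p (s (q.1, A q.2)))) 0 h1 h2)

theorem continuousAt_proj_spray (hO : IsOpen O) (h0 : ∀ w, (w, (0 : T)) ∈ O)
    (hs0 : ∀ w, s (w, 0) = w)
    (hs : ContMDiffOn (𝓘(ℂ, E).prod 𝓘(ℂ, T)) 𝓘(ℂ, E) ω s O)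
    (hp : ∀ w ∈ U, ContMDiffAt 𝓘(ℂ, E) 𝓘(ℂ, E) ω p w) (A : E →L[ℂ] T) {w : W} (hw : w ∈ U) :
    ContinuousAt (fun ξ : E => p (s (w, A ξ))) 0 := by
  have h1 : ContinuousAt (fun ξ : E => ((w, A ξ) : W × T)) 0 := by (clear * -; fun_prop)
  have h2 : ContinuousAt s (w, 0) := (hs.contMDiffAt (hO.mem_nhds (h0 w))).continuousAt
  have h3 : ContinuousAt (fun ξ : E => s (w, A ξ)) 0 :=
    ContinuousAt.comp_of_eq (g := s) h2 h1 (by simp)
  exact ContinuousAt.comp_of_eq (g := p) (hp w hw).continuousAt h3 (by simp only [map_zero, hs0])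

theorem jac_change (hO : IsOpen O) (h0 : ∀ w, (w, (0 : T)) ∈ O)
    (hs0 : ∀ w, s (w, 0) = w)
    (hs : ContMDiffOn (𝓘(ℂ, E).prod 𝓘(ℂ, T)) 𝓘(ℂ, E) ω s O)
    (hp : ∀ w ∈ U, ContMDiffAt 𝓘(ℂ, E) 𝓘(ℂ, E) ω p w) (A : E →L[ℂ] T)
    {c c' : OpenPartialHomeomorph X E} (hc : c ∈ atlas E X) (hc' : c' ∈ atlas E X)
    {w : W} (hw : w ∈ U) (hwc : p w ∈ c.source) (hwc' : p w ∈ c'.source) :
    jac s p A c' w = (fderiv ℂ (c' ∘ c.symm) (c (p w))).det * jac s p A c w := by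
  have h1 := (differentiableAt_jac_map hO h0 hs0 hs hp A hc hw hwc).differentiableAt
    (by simp)
  have h2 : DifferentiableAt ℂ (c' ∘ c.symm) (c (p w)) := by
    have h3 : ContMDiffAt 𝓘(ℂ, E) 𝓘(ℂ, E) ω c.symm (c (p w)) :=
      contMDiffAt_symm_of_mem_maximalAtlas (IsManifold.subset_maximalAtlas hc)
        (c.map_source hwc)
    have h4 : ContMDiffAt 𝓘(ℂ, E) 𝓘(ℂ, E) ω c' (p w) :=
      contMDiffAt_of_mem_maximalAtlas (IsManifold.subset_maximalAtlas hc') hwc'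
    have h5 : ContMDiffAt 𝓘(ℂ, E) 𝓘(ℂ, E) ω (c' ∘ c.symm) (c (p w)) :=
      ContMDiffAt.comp_of_eq (g := c') h4 h3 (c.left_inv hwc)
    exact (contMDiffAt_iff_contDiffAt.mp h5).differentiableAt (by simp)
  have h6 : c (p (s (w, A 0))) = c (p w) := by simp [hs0]
  have h7 : HasFDerivAt (fun ξ : E => (c' ∘ c.symm) (c (p (s (w, A ξ)))))
      ((fderiv ℂ (c' ∘ c.symm) (c (p w))).comp
        (fderiv ℂ (fun ξ : E => c (p (s (w, A ξ)))) 0)) 0 := by
    refine HasFDerivAt.comp (g := c' ∘ c.symm) (f := fun ξ : E => c (p (s (w, A ξ)))) 0 ?_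
      h1.hasFDerivAt
    rw [h6]
    exact h2.hasFDerivAt
  have h8 : (fun ξ : E => c' (p (s (w, A ξ)))) =ᶠ[𝓝 0]
      fun ξ : E => (c' ∘ c.symm) (c (p (s (w, A ξ)))) := by
    have h9 := continuousAt_proj_spray hO h0 hs0 hs hp A hw
    have h10 : ∀ᶠ ξ in 𝓝 (0 : E), p (s (w, A ξ)) ∈ c.source := by
      refine h9.eventually_mem (c.open_source.mem_nhds ?_)
      simpa only [map_zero, hs0] using hwc
    filter_upwards [h10] with ξ hξ
    simp only [Function.comp_apply, c.left_inv hξ]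
  rw [jac, (h7.congr_of_eventuallyEq h8).fderiv, jac]
  exact LinearMap.det_comp _ _

/-- The pull-back of a pluricanonical form, evaluated on a frame of spray vectors. -/
noncomputable def pullbackForm {m : ℕ} (s : W × T → W) (p : W → X) (A : E →L[ℂ] T)
    (σ : PluricanonicalForm E X m) (w : W) : ℂ :=
  σ.value (p w) * jac s p A (chartAt E (p w)) w ^ m

theorem pullbackForm_eq (hO : IsOpen O) (h0 : ∀ w, (w, (0 : T)) ∈ O)
    (hs0 : ∀ w, s (w, 0) = w)
    (hs : ContMDiffOn (𝓘(ℂ, E).prod 𝓘(ℂ, T)) 𝓘(ℂ, E) ω s O)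
    (hp : ∀ w ∈ U, ContMDiffAt 𝓘(ℂ, E) 𝓘(ℂ, E) ω p w) (A : E →L[ℂ] T)
    {m : ℕ} (σ : PluricanonicalForm E X m)
    {c : OpenPartialHomeomorph X E} (hc : c ∈ atlas E X)
    {w : W} (hw : w ∈ U) (hwc : p w ∈ c.source) :
    pullbackForm s p A σ w = σ.coeff c (c (p w)) * jac s p A c w ^ m := by
  rw [jac_change hO h0 hs0 hs hp A (chart_mem_atlas E (p w)) hc hw (mem_chart_source E (p w)) hwc,
    pullbackForm, PluricanonicalForm.value,
    σ.transform _ (chart_mem_atlas E (p w)) c hc (p w) ⟨mem_chart_source E (p w), hwc⟩]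
  ring

theorem holOn_pullbackForm [FiniteDimensional ℂ E] [IsManifold 𝓘(ℂ, E) ω W]
    (hU : IsOpen U) (hO : IsOpen O) (h0 : ∀ w, (w, (0 : T)) ∈ O)
    (hs0 : ∀ w, s (w, 0) = w)
    (hs : ContMDiffOn (𝓘(ℂ, E).prod 𝓘(ℂ, T)) 𝓘(ℂ, E) ω s O)
    (hp : ∀ w ∈ U, ContMDiffAt 𝓘(ℂ, E) 𝓘(ℂ, E) ω p w) (A : E →L[ℂ] T)
    {m : ℕ} (σ : PluricanonicalForm E X m) :
    HolOn E U (pullbackForm s p A σ) := by
  intro w hw
  set c := chartAt E (p w) with hcdef
  have hc : c ∈ atlas E X := chart_mem_atlas E (p w)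
  have hwc : p w ∈ c.source := mem_chart_source E (p w)
  have hnear : ∀ᶠ y in 𝓝 w, y ∈ U ∧ p y ∈ c.source :=
    (hU.eventually_mem hw).and
      ((hp w hw).continuousAt.eventually_mem (c.open_source.mem_nhds hwc))
  have h1 : ContMDiffAt 𝓘(ℂ, E) 𝓘(ℂ, ℂ) ω (fun y => σ.coeff c (c (p y))) w := by
    have h2 : ContMDiffAt 𝓘(ℂ, E) 𝓘(ℂ, E) ω (fun y => c (p y)) w :=
      ContMDiffAt.comp (g := c) w
        (contMDiffAt_of_mem_maximalAtlas (IsManifold.subset_maximalAtlas hc) hwc) (hp w hw)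
    have h3 : ContMDiffAt 𝓘(ℂ, E) 𝓘(ℂ, ℂ) ω (σ.coeff c) (c (p w)) :=
      contMDiffAt_iff_contDiffAt.mpr
        ((σ.holomorphic c hc).contDiffAt (c.open_target.mem_nhds (c.map_source hwc)))
    exact ContMDiffAt.comp (g := σ.coeff c) w h3 h2
  have h4 : ContMDiffAt 𝓘(ℂ, E) 𝓘(ℂ, ℂ) ω (fun y => jac s p A c y ^ m) w := by
    have h5 := contMDiffAt_fderiv_param (contMDiffAt_jac_map hO h0 hs0 hs hp A hc hw hwc)
    have h6 : ContMDiff 𝓘(ℂ, E →L[ℂ] E) 𝓘(ℂ, ℂ) ω (fun L : E →L[ℂ] E => L.det ^ m) :=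
      ((contDiff_det E).pow m).contMDiff
    exact ContMDiffAt.comp (g := fun L : E →L[ℂ] E => L.det ^ m) w h6.contMDiffAt h5
  have h7 : ContMDiffAt 𝓘(ℂ, E) 𝓘(ℂ, ℂ) ω
      (fun y => σ.coeff c (c (p y)) * jac s p A c y ^ m) w := h1.smul h4
  refine h7.congr_of_eventuallyEq ?_
  filter_upwards [hnear] with y hy
  exact pullbackForm_eq hO h0 hs0 hs hp A σ hc hy.1 hy.2

theorem exists_jac_ne_zero [FiniteDimensional ℂ E] [FiniteDimensional ℂ T]
    (hO : IsOpen O) (h0 : ∀ w, (w, (0 : T)) ∈ O)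
    (hs0 : ∀ w, s (w, 0) = w)
    (hs : ContMDiffOn (𝓘(ℂ, E).prod 𝓘(ℂ, T)) 𝓘(ℂ, E) ω s O)
    (hp : ∀ w ∈ U, ContMDiffAt 𝓘(ℂ, E) 𝓘(ℂ, E) ω p w)
    {w₀ : W} (hw₀ : w₀ ∈ U)
    (hdom : Function.Surjective (mfderiv 𝓘(ℂ, T) 𝓘(ℂ, E) (fun t => s (w₀, t)) 0))
    {r : X → W} (hr : ContMDiffAt 𝓘(ℂ, E) 𝓘(ℂ, E) ω r (p w₀)) (hr0 : r (p w₀) = w₀)
    (hpr : ∀ᶠ x in 𝓝 (p w₀), p (r x) = x) :
    ∃ A : E →L[ℂ] T, jac s p A (chartAt E (p w₀)) w₀ ≠ 0 := by
  set c := chartAt E (p w₀) with hcdef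
  have hc : c ∈ atlas E X := chart_mem_atlas E (p w₀)
  have hwc : p w₀ ∈ c.source := mem_chart_source E (p w₀)
  have hcat : ContMDiffAt 𝓘(ℂ, E) 𝓘(ℂ, E) ω c (p w₀) :=
    contMDiffAt_of_mem_maximalAtlas (IsManifold.subset_maximalAtlas hc) hwc
  set g : W → E := fun y => c (p y) with hg
  have hgat : ContMDiffAt 𝓘(ℂ, E) 𝓘(ℂ, E) ω g w₀ :=
    ContMDiffAt.comp (g := c) w₀ hcat (hp w₀ hw₀)
  set u₀ := c (p w₀) with hu₀
  set k : E → W := fun u => r (c.symm u) with hk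
  have hku₀ : k u₀ = w₀ := by simp only [hk, hu₀, c.left_inv hwc, hr0]
  have hkat : ContMDiffAt 𝓘(ℂ, E) 𝓘(ℂ, E) ω k u₀ := by
    have h3 : ContMDiffAt 𝓘(ℂ, E) 𝓘(ℂ, E) ω c.symm u₀ :=
      contMDiffAt_symm_of_mem_maximalAtlas (IsManifold.subset_maximalAtlas hc)
        (c.map_source hwc)
    exact ContMDiffAt.comp_of_eq (g := r) hr h3 (c.left_inv hwc)
  -- the derivative of `g` is onto
  have hD1 : Function.Surjective (mfderiv 𝓘(ℂ, E) 𝓘(ℂ, E) g w₀) := by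
    have h1 : HasMFDerivAt 𝓘(ℂ, E) 𝓘(ℂ, E) g (k u₀) (mfderiv 𝓘(ℂ, E) 𝓘(ℂ, E) g (k u₀)) := by
      rw [hku₀]
      exact (hgat.mdifferentiableAt (by simp)).hasMFDerivAt
    have h2 : HasMFDerivAt 𝓘(ℂ, E) 𝓘(ℂ, E) k u₀ (mfderiv 𝓘(ℂ, E) 𝓘(ℂ, E) k u₀) :=
      (hkat.mdifferentiableAt (by simp)).hasMFDerivAt
    obtain ⟨L, hL⟩ : ∃ L : E →L[ℂ] E, L = (mfderiv 𝓘(ℂ, E) 𝓘(ℂ, E) g (k u₀)).comp
      (mfderiv 𝓘(ℂ, E) 𝓘(ℂ, E) k u₀) := ⟨_, rfl⟩
    have h3 : HasFDerivAt (g ∘ k) L u₀ := by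
      rw [hL]
      exact (h1.comp u₀ h2).hasFDerivAt
    have h4 : (id : E → E) =ᶠ[𝓝 u₀] g ∘ k := by
      have h5 : ∀ᶠ u in 𝓝 u₀, u ∈ c.target := c.open_target.eventually_mem (c.map_source hwc)
      have h6 : Tendsto c.symm (𝓝 u₀) (𝓝 (p w₀)) := by
        have := (c.symm.continuousAt (x := u₀) (c.map_source hwc)).tendsto
        rwa [hu₀, c.left_inv hwc] at this
      filter_upwards [h5, h6.eventually hpr] with u hu1 hu2
      simp only [Function.comp_apply, hg, hk, id, hu2, c.right_inv hu1]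
    have h7 : L = ContinuousLinearMap.id ℂ E :=
      (h3.congr_of_eventuallyEq h4).unique (hasFDerivAt_id u₀)
    intro e
    have h8 : L e = e := by rw [h7]; rfl
    rw [hL] at h8
    have h9 : ∃ v, mfderiv 𝓘(ℂ, E) 𝓘(ℂ, E) g (k u₀) v = e :=
      ⟨mfderiv 𝓘(ℂ, E) 𝓘(ℂ, E) k u₀ e, h8⟩
    rw [hku₀] at h9
    exact h9
  -- the derivative of `g ∘ s (w₀, ·)` is onto
  have hsat : ContMDiffAt 𝓘(ℂ, T) 𝓘(ℂ, E) ω (fun t : T => s (w₀, t)) 0 := by
    have h1 : ContMDiffAt (𝓘(ℂ, E).prod 𝓘(ℂ, T)) 𝓘(ℂ, E) ω s (w₀, 0) :=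
      hs.contMDiffAt (hO.mem_nhds (h0 w₀))
    exact ContMDiffAt.comp (I' := 𝓘(ℂ, E).prod 𝓘(ℂ, T)) (g := s) (f := fun t : T => (w₀, t)) 0 h1
      (contMDiffAt_const.prodMk contMDiffAt_id)
  have h1 : HasMFDerivAt 𝓘(ℂ, E) 𝓘(ℂ, E) g (s (w₀, (0 : T)))
      (mfderiv 𝓘(ℂ, E) 𝓘(ℂ, E) g (s (w₀, (0 : T)))) := by
    rw [hs0]
    exact (hgat.mdifferentiableAt (by simp)).hasMFDerivAt
  have hD1' : Function.Surjective (mfderiv 𝓘(ℂ, E) 𝓘(ℂ, E) g (s (w₀, (0 : T)))) := by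
    rw [hs0]
    exact hD1
  have h2 := (hsat.mdifferentiableAt (by simp)).hasMFDerivAt
  have h3 := (h1.comp (0 : T) h2).hasFDerivAt
  obtain ⟨B, hB⟩ : ∃ B : T →L[ℂ] E, B = (mfderiv 𝓘(ℂ, E) 𝓘(ℂ, E) g (s (w₀, (0 : T)))).comp
      (mfderiv 𝓘(ℂ, T) 𝓘(ℂ, E) (fun t => s (w₀, t)) 0) := ⟨_, rfl⟩
  have hBsurj : Function.Surjective B := by
    rw [hB]
    exact hD1'.comp hdom
  have hBder : HasFDerivAt (fun t : T => g (s (w₀, t))) B 0 := by
    rw [hB]
    exact h3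
  obtain ⟨A, hA⟩ := (B : T →ₗ[ℂ] E).exists_rightInverse_of_surjective
    (LinearMap.range_eq_top.mpr hBsurj)
  refine ⟨LinearMap.toContinuousLinearMap A, ?_⟩
  have h4 : HasFDerivAt (fun ξ : E => c (p (s (w₀, LinearMap.toContinuousLinearMap A ξ))))
      (B.comp (LinearMap.toContinuousLinearMap A)) 0 := by
    refine HasFDerivAt.comp (g := fun t : T => g (s (w₀, t)))
      (f := LinearMap.toContinuousLinearMap A) 0 ?_
      (LinearMap.toContinuousLinearMap A).hasFDerivAt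
    rw [map_zero]
    exact hBder
  have h5 : B.comp (LinearMap.toContinuousLinearMap A) = ContinuousLinearMap.id ℂ E := by
    ext ξ
    exact congrArg (fun L : E →ₗ[ℂ] E => L ξ) hA
  rw [jac, h4.fderiv, h5]
  simp [ContinuousLinearMap.det]

/-- Pluricanonical forms without common zeros give enough holomorphic functions on `U`. -/
theorem exists_pullback [FiniteDimensional ℂ E] [FiniteDimensional ℂ T]
    [IsManifold 𝓘(ℂ, E) ω W] (hU : IsOpen U)
    (hO : IsOpen O) (h0 : ∀ w, (w, (0 : T)) ∈ O)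
    (hs0 : ∀ w, s (w, 0) = w)
    (hs : ContMDiffOn (𝓘(ℂ, E).prod 𝓘(ℂ, T)) 𝓘(ℂ, E) ω s O)
    (hp : ∀ w ∈ U, ContMDiffAt 𝓘(ℂ, E) 𝓘(ℂ, E) ω p w)
    {m N : ℕ} (σ : Fin N → PluricanonicalForm E X m)
    {w₀ : W} (hw₀ : w₀ ∈ U)
    (hdom : Function.Surjective (mfderiv 𝓘(ℂ, T) 𝓘(ℂ, E) (fun t => s (w₀, t)) 0))
    {r : X → W} (hr : ContMDiffAt 𝓘(ℂ, E) 𝓘(ℂ, E) ω r (p w₀)) (hr0 : r (p w₀) = w₀)
    (hpr : ∀ᶠ x in 𝓝 (p w₀), p (r x) = x) (hσ : ∃ a, (σ a).value (p w₀) ≠ 0) :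
    ∃ Φ : W → Fin N → ℂ, (∀ a, HolOn E U fun w => Φ w a) ∧ Φ w₀ ≠ 0 ∧
      ∀ w a b, (σ a).value (p w) * Φ w b = (σ b).value (p w) * Φ w a := by
  obtain ⟨A, hA⟩ := exists_jac_ne_zero hO h0 hs0 hs hp hw₀ hdom hr hr0 hpr
  refine ⟨fun w a => pullbackForm s p A (σ a) w, fun a =>
    holOn_pullbackForm hU hO h0 hs0 hs hp A (σ a), ?_, ?_⟩
  · obtain ⟨a, ha⟩ := hσ
    intro hcon
    have h1 := congrFun hcon a
    simp only [Pi.zero_apply, pullbackForm] at h1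
    exact (mul_ne_zero ha (pow_ne_zero m hA)) h1
  · intro w a b
    simp only [pullbackForm]
    ring

end Jac

end Vale.Agent.P300
end
end

section

section

open Set Filter Topology Metric TopologicalSpace
open scoped ContDiff Manifold

namespace Vale.Agent.P300

section

variable {E : Type*} [NormedAddCommGroup E] [NormedSpace ℂ E]
  {W : Type*} [TopologicalSpace W] [ChartedSpace E W]
  {X : Type*} [TopologicalSpace X] [ChartedSpace E X]

theorem holomorphicHull_eq_hullOn_univ (K : Set W) :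
    holomorphicHull E K = hullOn E univ K := by
  ext x
  constructor
  · intro hx
    exact ⟨mem_univ x, fun g hg C hC => hx g (fun w => hg w (mem_univ w)) C hC⟩
  · intro hx g hg C hC
    exact hx.2 g (fun w _ => hg w) C hC

/-- The closed relation between points of `X` and lines in `ℂ^N` defined by pluricanonical
forms. -/
def formRel {m N : ℕ} (σ : Fin N → PluricanonicalForm E X m) : Set (X × (Fin N → ℂ)) :=
  {q | ∀ a b, (σ a).value q.1 * q.2 b = (σ b).value q.1 * q.2 a}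

theorem formRel_iff [IsManifold 𝓘(ℂ, E) ω X] {m N : ℕ} (σ : Fin N → PluricanonicalForm E X m)
    {c : OpenPartialHomeomorph X E} (hc : c ∈ atlas E X) {x : X} (hx : x ∈ c.source)
    (h : Fin N → ℂ) : (x, h) ∈ formRel σ ↔
      ∀ a b, (σ a).coeff c (c x) * h b = (σ b).coeff c (c x) * h a := by
  set c₀ := chartAt E x with hc₀def
  have hc₀ : c₀ ∈ atlas E X := chart_mem_atlas E x
  have hx₀ : x ∈ c₀.source := mem_chart_source E x
  -- the derivative of the change of charts has nonzero determinant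
  have hdet : ∀ c c' : OpenPartialHomeomorph X E, c ∈ atlas E X → c' ∈ atlas E X →
      x ∈ c.source → x ∈ c'.source → DifferentiableAt ℂ (c' ∘ c.symm) (c x) := by
    intro c c' hc hc' hx hx'
    have h3 : ContMDiffAt 𝓘(ℂ, E) 𝓘(ℂ, E) ω c.symm (c x) :=
      contMDiffAt_symm_of_mem_maximalAtlas (IsManifold.subset_maximalAtlas hc)
        (c.map_source hx)
    have h4 : ContMDiffAt 𝓘(ℂ, E) 𝓘(ℂ, E) ω c' x :=
      contMDiffAt_of_mem_maximalAtlas (IsManifold.subset_maximalAtlas hc') hx'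
    have h5 : ContMDiffAt 𝓘(ℂ, E) 𝓘(ℂ, E) ω (c' ∘ c.symm) (c x) :=
      ContMDiffAt.comp_of_eq (g := c') h4 h3 (c.left_inv hx)
    exact (contMDiffAt_iff_contDiffAt.mp h5).differentiableAt (by simp)
  have hne : (fderiv ℂ (c ∘ c₀.symm) (c₀ x)).det ≠ 0 := by
    have h1 := (hdet c₀ c hc₀ hc hx₀ hx).hasFDerivAt
    have h2 := (hdet c c₀ hc hc₀ hx hx₀).hasFDerivAt
    have h3 : HasFDerivAt ((c₀ ∘ c.symm) ∘ (c ∘ c₀.symm))
        ((fderiv ℂ (c₀ ∘ c.symm) (c x)).comp (fderiv ℂ (c ∘ c₀.symm) (c₀ x))) (c₀ x) := by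
      refine HasFDerivAt.comp (g := c₀ ∘ c.symm) (f := c ∘ c₀.symm) (c₀ x) ?_ h1
      simp only [Function.comp_apply, c₀.left_inv hx₀]
      exact h2
    have h4 : (id : E → E) =ᶠ[𝓝 (c₀ x)] (c₀ ∘ c.symm) ∘ (c ∘ c₀.symm) := by
      have h5 : ∀ᶠ u in 𝓝 (c₀ x), u ∈ c₀.target :=
        c₀.open_target.eventually_mem (c₀.map_source hx₀)
      have h6 : Tendsto c₀.symm (𝓝 (c₀ x)) (𝓝 x) := by
        have := (c₀.symm.continuousAt (x := c₀ x) (c₀.map_source hx₀)).tendsto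
        rwa [c₀.left_inv hx₀] at this
      filter_upwards [h5, h6.eventually (c.open_source.eventually_mem hx)] with u hu1 hu2
      simp only [Function.comp_apply, id, c.left_inv hu2, c₀.right_inv hu1]
    have h7 := (h3.congr_of_eventuallyEq h4).unique (hasFDerivAt_id (c₀ x))
    have h8 : (fderiv ℂ (c₀ ∘ c.symm) (c x)).det * (fderiv ℂ (c ∘ c₀.symm) (c₀ x)).det = 1 := by
      have h9 := congrArg ContinuousLinearMap.det h7
      have h10 : ((fderiv ℂ (c₀ ∘ c.symm) (c x)).comp (fderiv ℂ (c ∘ c₀.symm) (c₀ x))).det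
          = (fderiv ℂ (c₀ ∘ c.symm) (c x)).det * (fderiv ℂ (c ∘ c₀.symm) (c₀ x)).det :=
        LinearMap.det_comp _ _
      rw [← h10, h9]
      simp [ContinuousLinearMap.det]
    exact right_ne_zero_of_mul_eq_one h8
  have hval : ∀ a, (σ a).value x =
      (σ a).coeff c (c x) * (fderiv ℂ (c ∘ c₀.symm) (c₀ x)).det ^ m := fun a =>
    (σ a).transform c₀ hc₀ c hc x ⟨hx₀, hx⟩
  have hne' := pow_ne_zero m hne
  constructor
  · intro hR a b
    have h1 := hR a b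
    simp only [hval] at h1
    apply mul_right_cancel₀ hne'
    linear_combination h1
  · intro hR a b
    simp only [hval]
    linear_combination (fderiv ℂ (c ∘ c₀.symm) (c₀ x)).det ^ m * hR a b

theorem isClosed_formRel [IsManifold 𝓘(ℂ, E) ω X] {m N : ℕ}
    (σ : Fin N → PluricanonicalForm E X m) : IsClosed (formRel σ) := by
  rw [← closure_subset_iff_isClosed]
  rintro ⟨x, h⟩ hxh
  set c := chartAt E x with hcdef
  have hc : c ∈ atlas E X := chart_mem_atlas E x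
  have hx : x ∈ c.source := mem_chart_source E x
  rw [formRel_iff σ hc hx]
  intro a b
  have hcoeff : ∀ a, ContinuousAt (fun q : X × (Fin N → ℂ) => (σ a).coeff c (c q.1)) (x, h) := by
    intro a
    have h1 : ContinuousAt ((σ a).coeff c) (c x) :=
      ((σ a).holomorphic c hc).continuousOn.continuousAt (c.open_target.mem_nhds (c.map_source hx))
    have h2 : ContinuousAt c x := c.continuousAt hx
    have h3 : ContinuousAt (fun q : X × (Fin N → ℂ) => c q.1) (x, h) :=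
      ContinuousAt.comp (g := c) h2 continuousAt_fst
    exact ContinuousAt.comp (g := (σ a).coeff c) h1 h3
  have hcont : ContinuousAt (fun q : X × (Fin N → ℂ) =>
      (σ a).coeff c (c q.1) * q.2 b - (σ b).coeff c (c q.1) * q.2 a) (x, h) := by
    refine ((hcoeff a).mul ?_).sub ((hcoeff b).mul ?_)
    · exact ((continuous_apply b).comp continuous_snd).continuousAt
    · exact ((continuous_apply a).comp continuous_snd).continuousAt
  have hne : NeBot (𝓝[formRel σ] (x, h)) := mem_closure_iff_nhdsWithin_neBot.mp hxh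
  have h1 : Tendsto (fun q : X × (Fin N → ℂ) =>
      (σ a).coeff c (c q.1) * q.2 b - (σ b).coeff c (c q.1) * q.2 a) (𝓝[formRel σ] (x, h))
      (𝓝 ((σ a).coeff c (c x) * h b - (σ b).coeff c (c x) * h a)) :=
    hcont.tendsto.mono_left nhdsWithin_le_nhds
  have h2 : Tendsto (fun q : X × (Fin N → ℂ) =>
      (σ a).coeff c (c q.1) * q.2 b - (σ b).coeff c (c q.1) * q.2 a) (𝓝[formRel σ] (x, h))
      (𝓝 0) := by
    refine Tendsto.congr' ?_ tendsto_const_nhds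
    have h3 : ∀ᶠ q : X × (Fin N → ℂ) in 𝓝[formRel σ] (x, h), q.1 ∈ c.source :=
      nhdsWithin_le_nhds (continuousAt_fst.eventually_mem (c.open_source.mem_nhds hx))
    filter_upwards [h3, self_mem_nhdsWithin] with q hq1 hq2
    have h4 := (formRel_iff σ hc hq1 q.2).mp hq2 a b
    rw [h4, sub_self]
  exact sub_eq_zero.mp (tendsto_nhds_unique h1 h2)

end

section

variable {E : Type*} [NormedAddCommGroup E] [NormedSpace ℂ E] [FiniteDimensional ℂ E]
  {W : Type*} [TopologicalSpace W] [T2Space W] [ChartedSpace E W] [IsManifold 𝓘(ℂ, E) ω W]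
  {X : Type*} [TopologicalSpace X] [T2Space X] [CompactSpace X] [ChartedSpace E X]
  [IsManifold 𝓘(ℂ, E) ω X]

theorem isCompact_hullOn_of_ample {T : Type*} [NormedAddCommGroup T] [NormedSpace ℂ T]
    [FiniteDimensional ℂ T] (hW : HolomorphicallyConvex E W)
    {O : Set (W × T)} {s : W × T → W}
    (hspray : IsDominatingLocalSpray E O s) (hK : CanonicalBundleAmple E X)
    {U : Opens W} {p : U → X} (hp : IsCoveringMap p)
    (hp' : IsLocalDiffeomorph 𝓘(ℂ, E) 𝓘(ℂ, E) ω p)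
    {K : Set W} (hKc : IsCompact K) (hKne : K.Nonempty) (hKU : K ⊆ U) :
    IsCompact (hullOn E (U : Set W) K) := by
  obtain ⟨hO, h0, hs, hs0, hdom⟩ := hspray
  obtain ⟨m, hm, N, σ, hσ0, hσfin⟩ := hK
  classical
  obtain ⟨k₀, hk₀⟩ := hKne
  set q : W → X := fun y => if h : y ∈ U then p ⟨y, h⟩ else p ⟨k₀, hKU hk₀⟩ with hq
  have hqU : ∀ (y : W) (h : y ∈ U), q y = p ⟨y, h⟩ := fun y h => by simp only [hq, dif_pos h]
  have hqval : (fun y : U => q y) = p := by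
    funext y
    exact hqU y y.2
  have hqhol : ∀ w ∈ (U : Set W), ContMDiffAt 𝓘(ℂ, E) 𝓘(ℂ, E) ω q w := by
    intro w hw
    have h1 : ContMDiffAt 𝓘(ℂ, E) 𝓘(ℂ, E) ω (fun y : U => q y) ⟨w, hw⟩ := by
      rw [hqval]
      exact hp'.contMDiff ⟨w, hw⟩
    exact contMDiffAt_subtype_iff.mp h1
  have hrange : ∀ h : Fin N → ℂ, h ≠ 0 → {x | (x, h) ∈ formRel σ}.Finite := by
    intro h hh
    rcases Set.eq_empty_or_nonempty {x | (x, h) ∈ formRel σ} with he | ⟨x₁, hx₁⟩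
    · rw [he]; exact Set.finite_empty
    · refine (hσfin x₁).subset ?_
      intro y hy a b
      obtain ⟨i, hi⟩ := Function.ne_iff.mp hh
      have hi' : h i ≠ 0 := hi
      have e1 : ∀ a, (σ a).value x₁ * h i = (σ i).value x₁ * h a := fun a => hx₁ a i
      have e2 : ∀ a, (σ a).value y * h i = (σ i).value y * h a := fun a => hy a i
      apply mul_right_cancel₀ (mul_ne_zero hi' hi')
      linear_combination (σ b).value y * h i * e1 a + (σ i).value x₁ * h a * e2 b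
        - (σ a).value y * h i * e1 b - (σ i).value x₁ * h b * e2 a
  refine isCompact_hullOn_of_spray (p := p) (R := formRel σ) U.isOpen
    (fun K hK hKne => ?_) hO h0 hs0 hs hdom hp (isClosed_formRel σ) ?_ hrange ?_ hKc
    ⟨k₀, hk₀⟩ hKU
  · rw [← holomorphicHull_eq_hullOn_univ]
    exact hW K hK hKne
  · intro x h μ hμ hR a b
    have h1 := hR a b
    simp only [Pi.smul_apply, smul_eq_mul] at h1
    apply mul_left_cancel₀ hμ
    linear_combination h1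
  · intro w₀ hw₀
    have hloc := hp' ⟨w₀, hw₀⟩
    set r : X → W := fun x => (hloc.localInverse x : W) with hr
    have hp0 : q w₀ = p ⟨w₀, hw₀⟩ := hqU w₀ hw₀
    have hr0 : r (q w₀) = w₀ := by
      have := hloc.localInverse_left_inv hloc.localInverse_mem_target
      simp only [hr, hp0, this]
    have hrhol : ContMDiffAt 𝓘(ℂ, E) 𝓘(ℂ, E) ω r (q w₀) := by
      rw [hp0]
      exact (contMDiff_subtype_val.contMDiffAt).comp _ hloc.localInverse_contMDiffAt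
    have hpr : ∀ᶠ x in 𝓝 (q w₀), q (r x) = x := by
      rw [hp0]
      filter_upwards [hloc.localInverse_eventuallyEq_right] with x hx
      simp only [Function.comp_apply, id] at hx
      simp only [hr]
      rw [hqU _ (hloc.localInverse x).2]
      exact hx
    obtain ⟨Φ, hΦ1, hΦ2, hΦ3⟩ := exists_pullback U.isOpen hO h0 hs0 hs hqhol σ hw₀ (hdom w₀)
      hrhol hr0 hpr (hσ0 (q w₀))
    refine ⟨Φ, hΦ1, hΦ2, ?_⟩
    intro w' a b
    have h1 := hΦ3 w' a b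
    rw [hqU w' w'.2] at h1
    exact h1

/-- **Main theorem.** -/
theorem holomorphicallyConvex_of_ample {T : Type*} [NormedAddCommGroup T] [NormedSpace ℂ T]
    [FiniteDimensional ℂ T] (hW : HolomorphicallyConvex E W)
    {O : Set (W × T)} {s : W × T → W}
    (hspray : IsDominatingLocalSpray E O s) (hK : CanonicalBundleAmple E X)
    {M : Type*} [TopologicalSpace M] [ChartedSpace E M]
    {p : M → X} (hp : IsCoveringMap p)
    (hp' : IsLocalDiffeomorph 𝓘(ℂ, E) 𝓘(ℂ, E) ω p)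
    (U : Opens W) (e : M ≃ₘ^ω⟮𝓘(ℂ, E), 𝓘(ℂ, E)⟯ U) :
    HolomorphicallyConvex E M := by
  intro K hKc hKne
  have hcov : IsCoveringMap (p ∘ e.symm) := hp.comp_homeomorph e.symm.toHomeomorph
  have hloc : IsLocalDiffeomorph 𝓘(ℂ, E) 𝓘(ℂ, E) ω (p ∘ e.symm) := fun u =>
    (e.symm.isLocalDiffeomorph u).comp _ _ (hp' _)
  set ι : M → W := fun x => (e x : W) with hι
  have hιcont : Continuous ι := continuous_subtype_val.comp e.continuous
  have hιind : IsInducing ι := IsInducing.subtypeVal.comp e.toHomeomorph.isInducing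
  have hcomp := isCompact_hullOn_of_ample hW hspray hK hcov hloc (K := ι '' K)
    (hKc.image hιcont) (hKne.image ι) (by rintro _ ⟨x, -, rfl⟩; exact (e x).2)
  have hpre : holomorphicHull E K = ι ⁻¹' (hullOn E (U : Set W) (ι '' K)) := by
    ext x
    constructor
    · intro hx
      refine ⟨(e x).2, fun g hg C hC => ?_⟩
      have hgι : ContMDiff 𝓘(ℂ, E) 𝓘(ℂ) ω (g ∘ ι) := by
        intro y
        have h1 : ContMDiffAt 𝓘(ℂ, E) 𝓘(ℂ, E) ω ι y :=
          ContMDiffAt.comp (g := (Subtype.val : U → W)) y contMDiff_subtype_val.contMDiffAt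
            e.contMDiff.contMDiffAt
        exact ContMDiffAt.comp (g := g) y (hg _ (e y).2) h1
      exact hx (g ∘ ι) hgι C fun k hk => hC _ ⟨k, hk, rfl⟩
    · intro hx g hg C hC
      classical
      set G : W → ℂ := fun y => if h : y ∈ U then g (e.symm ⟨y, h⟩) else 0 with hG
      have hGU : ∀ (y : W) (h : y ∈ U), G y = g (e.symm ⟨y, h⟩) := fun y h => by
        simp only [hG, dif_pos h]
      have hGhol : HolOn E (U : Set W) G := by
        intro w hw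
        have h1 : ContMDiffAt 𝓘(ℂ, E) 𝓘(ℂ, ℂ) ω (fun y : U => G y) ⟨w, hw⟩ := by
          have h2 : (fun y : U => G y) = fun y : U => g (e.symm y) := by
            funext y
            exact hGU y y.2
          rw [h2]
          exact (hg.comp e.symm.contMDiff) ⟨w, hw⟩
        exact contMDiffAt_subtype_iff.mp h1
      have h3 := hx.2 G hGhol C (by
        rintro _ ⟨k, hk, rfl⟩
        rw [hι]
        simp only
        rw [hGU _ (e k).2]
        simpa only [Subtype.coe_eta, Diffeomorph.symm_apply_apply] using hC k hk)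
      rw [hι] at h3
      simp only at h3
      rw [hGU _ (e x).2] at h3
      simpa only [ge_iff_le, Subtype.coe_eta, Diffeomorph.symm_apply_apply] using h3
  rw [hpre]
  refine (hιind.isCompact_preimage_iff ?_).mpr hcomp
  intro y hy
  exact ⟨e.symm ⟨y, hy.1⟩, by simp [hι]⟩

end

end Vale.Agent.P300
end
end
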